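import Crest.Agent.N265.Psi.Cyc
import Crest.Agent.N265.Psi.Defs
import Crest.Agent.N265.Jac.Tan
import Crest.Agent.R270.Crv4_110

-- ▼ part N265/Psi/Lev
section

/-!
# Row 265, PSI part 3 (helper25): the three levels (points, curves, surface)

Abstract setting `Ctx`: a graded ring, a homogeneous prime `I₀`, linear forms `L` of degree `e`.
`level0` : the cycle of a zero-dimensional ideal.  `main` : a function on zero-dimensional ideals
that kills principal divisors on curves extends, after an injective change of the target group,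
to all homogeneous ideals containing `I₀`, if the surface is normal.
-/

set_option autoImplicit false
set_option linter.unusedSectionVars false

namespace Crest.Agent.N265.Psi

variable {Γ : Type*} [AddCommGroup Γ] {R : Type*} [CommRing R] {G : Type*} [AddCommGroup G]

theorem exists_integral (f : ℤ → G) : ∃ w : ℤ → G, ∀ k, w k = f k + w (k + 1) := by
  refine ⟨fun k => match k with
    | Int.ofNat n => -∑ i ∈ Finset.range n, f i
    | Int.negSucc n => ∑ i ∈ Finset.range (n + 1), f (Int.negSucc i), fun k => ?_⟩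
  rcases k with n | n
  · show -∑ i ∈ Finset.range n, f i = f n + -∑ i ∈ Finset.range (n + 1), f i
    rw [Finset.sum_range_succ]
    abel
  · rcases n with _ | n
    · show ∑ i ∈ Finset.range 1, f (Int.negSucc i) = f (Int.negSucc 0) +
        -∑ i ∈ Finset.range 0, f i
      simp
    · show ∑ i ∈ Finset.range (n + 1 + 1), f (Int.negSucc i) = f (Int.negSucc (n + 1)) +
        ∑ i ∈ Finset.range (n + 1), f (Int.negSucc i)
      rw [Finset.sum_range_succ, add_comm]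

/-- the multiplication rule for principal ideals over a prime -/
theorem mul_rule {A : GrR Γ R} {Ψ : Ideal R → Γ → G} {P : Ideal R} (hP : HPr A P) (hh : A.HS P)
    {d : Γ} {a c : R} (ha : A.H d a) (haP : a ∉ P) (h : AddAt A Ψ (adj P (a * c))) (γ : Γ) :
    Ψ (adj P (a * c)) γ = Ψ (adj P a) γ + Ψ (adj P c) (γ + d) := by
  have e1 : adj (adj P (a * c)) a = adj P a :=
    le_antisymm (adj_le (adj_le (le_adj P a) (mem_adj.2 ⟨c, by simp [mul_comm]⟩))
      (self_mem_adj P a)) (adj_mono (le_adj P _) a)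
  have e2 : col (adj P (a * c)) a = adj P c := by
    ext r
    rw [mem_col, mem_adj, mem_adj]
    refine exists_congr fun s => ?_
    simp only [smul_eq_mul]
    rw [show r * a - s * (a * c) = (r - s * c) • a by rw [smul_eq_mul]; ring, ← mem_col,
      hP.col_eq hh ha haP]
  rw [h d a γ ha, e1, e2]

/-- the abstract setting -/
structure Ctx (Γ : Type*) [AddCommGroup Γ] (R : Type*) [CommRing R] where
  A : GrR Γ R
  e : Γ
  π : Γ →+ ℤ
  πe : π e = 1
  I₀ : Ideal R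
  hom₀ : A.HS I₀
  pr₀ : HPr A I₀
  L : Set R
  hL : ∀ l ∈ L, A.H e l
  rel₀ : ∃ l ∈ L, l ∉ I₀
  deg : ∀ d a, A.H d a → a ∉ I₀ → ∃ n : ℕ, d = n • e
  wf : WellFounded fun X Y : Ideal R => (A.HS Y ∧ I₀ ≤ Y) ∧ Y < X

namespace Ctx

variable (C : Ctx Γ R)

/-- homogeneous ideals containing `I₀` -/
def U2 : Set (Ideal R) := {J | C.A.HS J ∧ C.I₀ ≤ J}
/-- relevant primes -/
def RP (P : Ideal R) : Prop := P ∈ C.U2 ∧ HPr C.A P ∧ ∃ l ∈ C.L, l ∉ P
/-- points -/
def IsPt (P : Ideal R) : Prop := C.RP P ∧ ∀ P', C.RP P' → ¬ P < P'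
/-- irrelevant ideals -/
def Um : Set (Ideal R) := {J | J ∈ C.U2 ∧ ∀ P, C.RP P → ¬ J ≤ P}
/-- zero-dimensional ideals -/
def U0 : Set (Ideal R) := {J | J ∈ C.U2 ∧ ∀ P, C.RP P → J ≤ P → C.IsPt P}
/-- proper closed subschemes -/
def U1 : Set (Ideal R) := {J | J ∈ C.U2 ∧ J ≠ C.I₀}
/-- curves -/
def IsCv (Q : Ideal R) : Prop := C.RP Q ∧ C.I₀ < Q ∧ ¬ C.IsPt Q

theorem fam_of {U : Set (Ideal R)} (h : U ⊆ C.U2) (htop : ⊤ ∈ U)
    (hup : ∀ J ∈ U, ∀ J' ∈ C.U2, J ≤ J' → J' ∈ U) : Fam C.A U where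
  hom _ hJ := (h hJ).1
  up J hJ J' hJ' hle := hup J hJ J' ⟨hJ', (h hJ).2.trans hle⟩ hle
  top := htop
  wf := Subrelation.wf (fun hxy => ⟨h hxy.1, hxy.2⟩) C.wf

theorem top_mem : ⊤ ∈ C.U2 := ⟨C.A.HS_top, le_top⟩

theorem fam2 : Fam C.A C.U2 := C.fam_of subset_rfl C.top_mem fun _ _ _ h _ => h

theorem famm : Fam C.A C.Um :=
  C.fam_of (fun _ h => h.1) ⟨C.top_mem, fun _ hP h => hP.2.1.1 (top_le_iff.1 h)⟩
    fun _ hJ _ h hle => ⟨h, fun P hP h' => hJ.2 P hP (hle.trans h')⟩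

theorem fam0 : Fam C.A C.U0 :=
  C.fam_of (fun _ h => h.1) ⟨C.top_mem, fun _ hP h => (hP.2.1.1 (top_le_iff.1 h)).elim⟩
    fun _ hJ _ h hle => ⟨h, fun P hP h' => hJ.2 P hP (hle.trans h')⟩

theorem fam1 : Fam C.A C.U1 :=
  C.fam_of (fun _ h => h.1) ⟨C.top_mem, C.pr₀.1.symm⟩
    fun _ hJ _ h hle => ⟨h, fun e => hJ.2 (le_antisymm (e ▸ hle) hJ.1.2)⟩

theorem Um_sub : C.Um ⊆ C.U0 := fun _ h => ⟨h.1, fun P hP hle => (h.2 P hP hle).elim⟩

variable {C}

theorem rp_of_le {P P' : Ideal R} (hP : P ∈ C.U2) (hp : HPr C.A P) (h' : C.RP P') (hle : P ≤ P') :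
    C.RP P := by
  obtain ⟨l, hl, hl'⟩ := h'.2.2
  exact ⟨hP, hp, l, hl, fun h => hl' (hle h)⟩

theorem IsPt.mem_U0 {P : Ideal R} (h : C.IsPt P) : P ∈ C.U0 :=
  ⟨h.1.1, fun P' hP' hle => by
    rcases hle.eq_or_lt with e | e
    · exact e ▸ h
    · exact (h.2 P' hP' e).elim⟩

theorem IsPt.notMem_Um {P : Ideal R} (h : C.IsPt P) : P ∉ C.Um := fun h' => h'.2 P h.1 le_rfl

theorem isPt_of {P : Ideal R} (hP : P ∈ C.U0) (hm : P ∉ C.Um) (hp : HPr C.A P) : C.IsPt P := by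
  have : ∃ P', C.RP P' ∧ P ≤ P' := by
    by_contra hc
    push Not at hc
    exact hm ⟨hP.1, hc⟩
  obtain ⟨P', h1, h2⟩ := this
  exact hP.2 P (rp_of_le hP.1 hp h1 h2) le_rfl

theorem IsPt.adj_mem {P : Ideal R} (h : C.IsPt P) {d : Γ} {a : R} (ha : C.A.H d a)
    (haP : a ∉ P) : adj P a ∈ C.Um :=
  ⟨C.fam2.adj_mem h.1.1 ha, fun P' hP' hle => h.2 P' hP' ((lt_adj haP).trans_le hle)⟩


theorem IsCv.notMem_U0 {Q : Ideal R} (h : C.IsCv Q) : Q ∉ C.U0 :=
  fun h' => h.2.2 (h'.2 Q h.1 le_rfl)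

theorem isCv_of {Q : Ideal R} (hQ : Q ∈ C.U1) (h0 : Q ∉ C.U0) (hp : HPr C.A Q) : C.IsCv Q := by
  have : ∃ P, C.RP P ∧ Q ≤ P ∧ ¬ C.IsPt P := by
    by_contra hc
    push Not at hc
    exact h0 ⟨hQ.1, hc⟩
  obtain ⟨P, h1, h2, h3⟩ := this
  refine ⟨rp_of_le hQ.1 hp h1 h2, lt_of_le_of_ne hQ.1.2 hQ.2.symm, fun h => ?_⟩
  rcases h2.eq_or_lt with e | e
  · exact h3 (e ▸ h)
  · exact h.2 P h1 e

theorem adj₀_mem {d : Γ} {a : R} (ha : C.A.H d a) (h : a ∉ C.I₀) : adj C.I₀ a ∈ C.U1 :=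
  ⟨C.fam2.adj_mem ⟨C.hom₀, le_rfl⟩ ha, (lt_adj h).ne'⟩

variable (C)

/-- dimension at most two -/
def Dim : Prop := ∀ Q P P', C.RP Q → C.RP P → C.RP P' → C.I₀ < Q → Q < P → ¬ P < P'

/-- normality -/
def Nrm : Prop := ∀ d a b, C.A.H d a → C.A.H d b → a ∉ C.I₀ → b ∉ C.I₀ →
  col (adj C.I₀ b) a ∈ C.Um ∨ ∃ Q e r s, C.IsCv Q ∧ C.A.H e r ∧ C.A.H e s ∧ r ∈ Q ∧ s ∉ Q ∧
    b * s - a * r ∈ C.I₀

variable {C}

theorem IsCv.adj_mem (hd : C.Dim) {Q : Ideal R} (h : C.IsCv Q) {d : Γ} {a : R} (ha : C.A.H d a)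
    (haQ : a ∉ Q) : adj Q a ∈ C.U0 :=
  ⟨C.fam2.adj_mem h.1.1 ha, fun P hP hle =>
    ⟨hP, fun P' hP' => hd Q P P' h.1 hP hP' h.2.1 ((lt_adj haQ).trans_le hle)⟩⟩

variable (C)

/-- the cycle of a zero-dimensional ideal -/
theorem level0 (pt : Ideal R → G) : ∃ Ψ : Ideal R → Γ → G, CycAdd C.A C.U0 Ψ ∧
    (∀ J ∈ C.Um, ∀ γ, Ψ J γ = 0) ∧ ∀ P, C.IsPt P → ∀ γ, Ψ P γ = pt P := by
  obtain ⟨Ψ, h1, h2, h3⟩ := extend C.famm C.fam0 (Ψ₀ := fun _ _ => (0 : G))
    (fun _ _ _ _ _ _ => by simp) (fun P _ => pt P) (fun P hP hm hp d a ha haP =>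
      ⟨(isPt_of hP hm hp).adj_mem ha haP, fun _ => by simp⟩)
  exact ⟨Ψ, h1, fun J hJ γ => by rw [h2 J hJ],
    fun P hP γ => by rw [h3 P hP.mem_U0 hP.notMem_Um hP.1.2.1]⟩

variable {C}

/-- a shift of an additive function is additive -/
theorem cycAdd_comp {U : Set (Ideal R)} (hU : Fam C.A U) (hs : U ⊆ C.U2) {Ψ : Ideal R → Γ → G}
    (h : CycAdd C.A U Ψ) (σ : Γ → Γ) (hσ : ∀ γ (n : ℕ), σ (γ + n • C.e) = σ γ + n • C.e) :
    CycAdd C.A U fun J γ => Ψ J (σ γ) := by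
  intro J hJ d a γ ha
  by_cases haJ : a ∈ J
  · simp only [adj_of_mem haJ, col_of_mem haJ, (h ⊤ hU.top).top_eq_zero, add_zero]
  · obtain ⟨n, rfl⟩ := C.deg d a ha fun h0 => haJ ((hs hJ).2 h0)
    simp only [hσ]
    exact h J hJ _ a _ ha

/-- weights that are invariant under `e` can be multiplied in -/
theorem cycAdd_wt {U : Set (Ideal R)} (hU : Fam C.A U) (hs : U ⊆ C.U2) {Ψ : Ideal R → Γ → G}
    (h : CycAdd C.A U Ψ) (wt : Γ → ℤ) (hw : ∀ γ, wt (γ + C.e) = wt γ) :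
    CycAdd C.A U fun J γ => wt γ • Ψ J γ := by
  have hw' : ∀ γ (n : ℕ), wt (γ + n • C.e) = wt γ := fun γ n => by
    induction n with
    | zero => simp
    | succ n ih => rw [succ_nsmul, ← add_assoc, hw, ih]
  intro J hJ d a γ ha
  by_cases haJ : a ∈ J
  · simp only [adj_of_mem haJ, col_of_mem haJ, (h ⊤ hU.top).top_eq_zero, add_zero, smul_zero]
  · obtain ⟨n, rfl⟩ := C.deg d a ha fun h0 => haJ ((hs hJ).2 h0)
    simp only [hw']
    rw [h J hJ _ a γ ha, smul_add]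

variable (C) in
/-- the function only depends on the `e`-degree -/
def Inv (U : Set (Ideal R)) (Ψ : Ideal R → Γ → G) : Prop :=
  ∀ J ∈ U, ∀ γ, Ψ J γ = Ψ J (C.π γ • C.e)

theorem inv_of {U : Set (Ideal R)} (hU : Fam C.A U) (hs : U ⊆ C.U2) {Ψ : Ideal R → Γ → G}
    (h : CycAdd C.A U Ψ) (hp : ∀ P ∈ U, HPr C.A P → ∀ γ, Ψ P γ = Ψ P (C.π γ • C.e)) :
    C.Inv U Ψ :=
  h.ext hU (cycAdd_comp hU hs h (fun γ => C.π γ • C.e) fun γ n => by
    simp [C.πe, add_smul]) hp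

theorem const_of {U : Set (Ideal R)} (hU : Fam C.A U) (hs : U ⊆ C.U2) {Ψ : Ideal R → Γ → G}
    (h : CycAdd C.A U Ψ) (hp : ∀ P ∈ U, HPr C.A P → ∀ γ γ', Ψ P γ = Ψ P γ') :
    ∀ J ∈ U, ∀ γ γ', Ψ J γ = Ψ J γ' := by
  intro J hJ γ γ'
  have := h.ext hU (cycAdd_comp hU hs h (fun x => x + (γ' - γ)) fun x n => by abel)
    (fun P hP hpr x => hp P hP hpr _ _) J hJ γ
  simpa using this

/-- one step up: the values on a new prime -/
theorem exists_val {U : Set (Ideal R)} (hU : Fam C.A U) {Ψ : Ideal R → Γ → G}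
    (h : CycAdd C.A U Ψ) (hi : C.Inv U Ψ) {P : Ideal R} (hP : C.RP P)
    (hadj : ∀ d a, C.A.H d a → a ∉ P → adj P a ∈ U)
    (hE : ∀ d a b γ, C.A.H d a → C.A.H d b → a ∉ P → b ∉ P → Ψ (adj P a) γ = Ψ (adj P b) γ) :
    ∃ v : Γ → G, (∀ γ, v γ = v (C.π γ • C.e)) ∧
      ∀ d a, C.A.H d a → a ∉ P → ∀ γ, v γ = Ψ (adj P a) γ + v (γ + d) := by
  obtain ⟨⟨hh, hI⟩, hp, l, hl, hlP⟩ := hP
  have hle := C.hL l hl
  obtain ⟨w, hw⟩ := exists_integral fun k => Ψ (adj P l) (k • C.e)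
  have key : ∀ (n : ℕ) γ, w (C.π γ) = Ψ (adj P (l ^ n)) γ + w (C.π γ + n) := by
    intro n
    induction n with
    | zero =>
      intro γ
      rw [pow_zero, show adj P (1 : R) = ⊤ from
        (Ideal.eq_top_iff_one _).2 (self_mem_adj P 1), (h ⊤ hU.top).top_eq_zero]
      simp
    | succ n ih =>
      intro γ
      have h1 := hp.pow_notMem hle hlP n
      have h2 := hadj _ _ (C.A.H_pow hle (n + 1)) (hp.pow_notMem hle hlP (n + 1))
      rw [pow_succ] at h2 ⊢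
      rw [mul_rule hp hh (C.A.H_pow hle n) h1 (h _ h2), ih γ, hw (C.π γ + n),
        hi _ (hadj _ _ hle hlP) (γ + n • C.e)]
      simp only [map_add, map_nsmul, C.πe, nsmul_eq_mul, mul_one, Nat.cast_add, Nat.cast_one,
        add_assoc]
  refine ⟨fun γ => w (C.π γ), fun γ => by simp [C.πe], fun d a ha haP γ => ?_⟩
  obtain ⟨n, rfl⟩ := C.deg d a ha fun h0 => haP (hI h0)
  rw [hE _ a (l ^ n) γ ha (C.A.H_pow hle n) haP (hp.pow_notMem hle hlP n)]
  simp only [map_add, map_nsmul, C.πe, nsmul_eq_mul, mul_one]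
  exact key n γ

/-- one step up: extension -/
theorem step {U U' : Set (Ideal R)} (hU : Fam C.A U) (hU' : Fam C.A U') (hs : U' ⊆ C.U2)
    {Ψ : Ideal R → Γ → G} (h : CycAdd C.A U Ψ) (hi : C.Inv U Ψ)
    (hnew : ∀ P ∈ U', P ∉ U → HPr C.A P → C.RP P ∧ (∀ d a, C.A.H d a → a ∉ P → adj P a ∈ U) ∧
      ∀ d a b γ, C.A.H d a → C.A.H d b → a ∉ P → b ∉ P → Ψ (adj P a) γ = Ψ (adj P b) γ) :
    ∃ Ψ' : Ideal R → Γ → G, CycAdd C.A U' Ψ' ∧ C.Inv U' Ψ' ∧ ∀ J ∈ U, Ψ' J = Ψ J := by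
  have hv : ∀ P : Ideal R, ∃ v : Γ → G, P ∈ U' → P ∉ U → HPr C.A P →
      (∀ γ, v γ = v (C.π γ • C.e)) ∧
      ∀ d a, C.A.H d a → a ∉ P → ∀ γ, v γ = Ψ (adj P a) γ + v (γ + d) := by
    intro P
    by_cases hc : P ∈ U' ∧ P ∉ U ∧ HPr C.A P
    · obtain ⟨h1, h2, h3⟩ := hnew P hc.1 hc.2.1 hc.2.2
      obtain ⟨v, hv⟩ := exists_val hU h hi h1 h2 h3
      exact ⟨v, fun _ _ _ => hv⟩
    · exact ⟨0, fun h1 h2 h3 => (hc ⟨h1, h2, h3⟩).elim⟩
  choose v hv using hv
  obtain ⟨Ψ', h1, h2, h3⟩ := extend hU hU' h v fun P hP hn hp d a ha haP =>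
    ⟨(hnew P hP hn hp).2.1 d a ha haP, (hv P hP hn hp).2 d a ha haP⟩
  refine ⟨Ψ', h1, inv_of hU' hs h1 fun P hP hp γ => ?_, h2⟩
  by_cases hn : P ∈ U
  · rw [h2 P hn]
    exact hi P hn γ
  · rw [h3 P hP hn hp]
    exact (hv P hP hn hp).1 γ

open Classical in
/-- the cycle map to curves -/
theorem exists_z (hd : C.Dim) : ∃ z : Ideal R → Γ → Ideal R → ℤ, CycAdd C.A C.U1 z ∧
    (∀ J ∈ C.U0, ∀ γ, z J γ = 0) ∧ (∀ J ∈ C.U1, ∀ γ γ', z J γ = z J γ') ∧
    ∀ Q, C.IsCv Q → ∀ J ∈ C.U1, ∀ γ, (J ≤ Q → 1 ≤ z J γ Q) ∧ (¬ J ≤ Q → z J γ Q = 0) := by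
  obtain ⟨z, h1, h2, h3⟩ := extend C.fam0 C.fam1 (Ψ₀ := fun _ _ => (0 : Ideal R → ℤ))
    (fun _ _ _ _ _ _ => by simp) (fun P _ => Pi.single P 1) (fun P hP hm hp d a ha haP =>
      ⟨(isCv_of hP hm hp).adj_mem hd ha haP, fun _ => by simp⟩)
  have h2' : ∀ J ∈ C.U0, ∀ γ, z J γ = 0 := fun J hJ γ => by rw [h2 J hJ]
  refine ⟨z, h1, h2', const_of C.fam1 (fun _ h => h.1) h1 fun P hP hp γ γ' => ?_, ?_⟩
  · by_cases h0 : P ∈ C.U0
    · rw [h2' P h0, h2' P h0]
    · rw [h3 P hP h0 hp]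
  intro Q hQ
  have key : ∀ J ∈ C.U1, ∀ γ, 0 ≤ z J γ Q ∧ (J ≤ Q → 1 ≤ z J γ Q) ∧ (¬ J ≤ Q → z J γ Q = 0) := by
    refine C.fam1.induction (fun γ => ?_) (fun P hP hp γ => ?_) fun J hJ d a γ ha i1 i2 => ?_
    · rw [(h1 ⊤ C.fam1.top).top_eq_zero]
      exact ⟨le_rfl, fun h => (hQ.1.2.1.1 (top_le_iff.1 h)).elim, fun _ => rfl⟩
    · have hPQ : P ≤ Q → P = Q := fun hle => by
        by_contra hne
        have h4 := hQ.2.2
        unfold IsPt at h4
        push Not at h4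
        obtain ⟨P', h5, h6⟩ := h4 hQ.1
        exact hd P Q P' (rp_of_le hP.1 hp hQ.1 hle) hQ.1 h5 (lt_of_le_of_ne hP.1.2 hP.2.symm)
          (lt_of_le_of_ne hle hne) h6
      by_cases h0 : P ∈ C.U0
      · rw [h2' P h0]
        exact ⟨le_rfl, fun hle => (hQ.notMem_U0 (hPQ hle ▸ h0)).elim, fun _ => rfl⟩
      · rw [h3 P hP h0 hp]
        by_cases e : P = Q
        · subst e
          simp
        · simp only [Pi.single_eq_of_ne (Ne.symm e), le_refl, true_and, implies_true, and_true]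
          exact fun hle => (e (hPQ hle)).elim
    · rw [h1 J hJ d a γ ha, Pi.add_apply]
      refine ⟨add_nonneg i1.1 i2.1, fun hle => ?_, fun hle => ?_⟩
      · by_cases haQ : a ∈ Q
        · have := i1.2.1 (adj_le hle haQ)
          linarith [i2.1]
        · have := i2.2.1 ((col_mono hle a).trans (hQ.1.2.1.col_eq hQ.1.1.1 ha haQ).le)
          linarith [i1.1]
      · rw [i1.2.2 fun h => hle ((le_adj J a).trans h),
          i2.2.2 fun h => hle ((le_col J a).trans h), add_zero]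
  exact fun J hJ γ => (key J hJ γ).2

/-- differences of principal ideals do not depend on the twist -/
theorem twist {χ : Ideal R → Γ → G} (h : CycAdd C.A C.U1 χ) (hi : C.Inv C.U1 χ) {d : Γ}
    {a b : R} (ha : C.A.H d a) (hb : C.A.H d b) (ha' : a ∉ C.I₀) (hb' : b ∉ C.I₀) (γ : Γ) :
    χ (adj C.I₀ a) γ - χ (adj C.I₀ b) γ = χ (adj C.I₀ a) 0 - χ (adj C.I₀ b) 0 := by
  obtain ⟨l, hl, hl'⟩ := C.rel₀
  have hle := C.hL l hl
  have one : ∀ {a : R}, C.A.H d a → a ∉ C.I₀ → ∀ γ, χ (adj C.I₀ a) (γ + C.e) =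
      χ (adj C.I₀ a) γ + (χ (adj C.I₀ l) (γ + d) - χ (adj C.I₀ l) γ) := by
    intro a ha ha' γ
    have hm := h _ (adj₀_mem (C.A.H_mul ha hle) (C.pr₀.mul_notMem ha hle ha' hl'))
    have e1 := mul_rule C.pr₀ C.hom₀ ha ha' hm γ
    rw [mul_comm a l] at hm e1
    have e2 := mul_rule C.pr₀ C.hom₀ hle hl' hm γ
    rw [e2] at e1
    rw [← add_sub_assoc, ← e1]
    abel
  have stp : ∀ γ, χ (adj C.I₀ a) (γ + C.e) - χ (adj C.I₀ b) (γ + C.e) =
      χ (adj C.I₀ a) γ - χ (adj C.I₀ b) γ := fun γ => by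
    rw [one ha ha', one hb hb']
    abel
  rw [hi _ (adj₀_mem ha ha') γ, hi _ (adj₀_mem hb hb') γ]
  induction C.π γ using Int.induction_on with
  | zero => simp
  | succ k ih => rw [add_smul, one_smul, stp, ih]
  | pred k ih => rw [← stp, sub_smul, one_smul, sub_add_cancel, ih]

/-- the subgroup of principal divisors on the surface -/
def prin (χ : Ideal R → Γ → G) (h : CycAdd C.A C.U1 χ) (hi : C.Inv C.U1 χ) : AddSubgroup G where
  carrier := {g | ∃ d a b, C.A.H d a ∧ C.A.H d b ∧ a ∉ C.I₀ ∧ b ∉ C.I₀ ∧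
    g = χ (adj C.I₀ a) 0 - χ (adj C.I₀ b) 0}
  zero_mem' := ⟨0, 1, 1, C.A.one, C.A.one, C.pr₀.one_notMem, C.pr₀.one_notMem, by simp⟩
  neg_mem' := by
    rintro _ ⟨d, a, b, h1, h2, h3, h4, rfl⟩
    exact ⟨d, b, a, h2, h1, h4, h3, by simp⟩
  add_mem' := by
    rintro _ _ ⟨d, a, b, h1, h2, h3, h4, rfl⟩ ⟨d', a', b', h1', h2', h3', h4', rfl⟩
    have k1 := C.pr₀.mul_notMem h1 h1' h3 h3'
    have k2 := C.pr₀.mul_notMem h2 h2' h4 h4'
    refine ⟨d + d', a * a', b * b', C.A.H_mul h1 h1', C.A.H_mul h2 h2', k1, k2, ?_⟩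
    rw [mul_rule C.pr₀ C.hom₀ h1 h3 (h _ (adj₀_mem (C.A.H_mul h1 h1') k1)),
      mul_rule C.pr₀ C.hom₀ h2 h4 (h _ (adj₀_mem (C.A.H_mul h2 h2') k2)),
      ← twist h hi h1' h2' h3' h4' (0 + d)]
    abel

universe u

/-- **Main theorem** on ideals. -/
theorem main {R : Type u} [CommRing R] {G : Type u} [AddCommGroup G] {C : Ctx Γ R} (hd : C.Dim)
    (hn : C.Nrm) (hbig : C.I₀ ∉ C.U0) {Ψ₀ : Ideal R → Γ → G} (h₀ : CycAdd C.A C.U0 Ψ₀)
    (hm : ∀ J ∈ C.Um, ∀ γ, Ψ₀ J γ = 0) (hi : C.Inv C.U0 Ψ₀)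
    (hE : ∀ Q, C.IsCv Q → ∀ d a b γ, C.A.H d a → C.A.H d b → a ∉ Q → b ∉ Q →
      Ψ₀ (adj Q a) γ = Ψ₀ (adj Q b) γ) :
    ∃ (A : Type u) (_ : AddCommGroup A) (κ : G →+ A) (Ψ : Ideal R → Γ → A),
      Function.Injective κ ∧ CycAdd C.A C.U2 Ψ ∧ ∀ J ∈ C.U0, ∀ γ, Ψ J γ = κ (Ψ₀ J γ) := by
  obtain ⟨ψ, p1, p2, p3⟩ := step C.fam0 C.fam1 (fun _ h => h.1) h₀ hi fun Q hQ h0 hp =>
    ⟨(isCv_of hQ h0 hp).1, fun d a ha haQ => (isCv_of hQ h0 hp).adj_mem hd ha haQ,
      hE Q (isCv_of hQ h0 hp)⟩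
  obtain ⟨z, z1, z2, z3, z4⟩ := exists_z hd
  set χ : Ideal R → Γ → (Ideal R → ℤ) × G := fun J γ => (z J γ, ψ J γ) with hχ
  have c1 : CycAdd C.A C.U1 χ := fun J hJ d a γ ha =>
    Prod.ext (z1 J hJ d a γ ha) (p1 J hJ d a γ ha)
  have c2 : C.Inv C.U1 χ := fun J hJ γ => Prod.ext (z3 J hJ _ _) (p2 J hJ γ)
  set N := prin χ c1 c2 with hN
  obtain ⟨Ψ, q1, -, q3⟩ := step C.fam1 C.fam2 subset_rfl
    (Ψ := fun J γ => QuotientAddGroup.mk' N (χ J γ))
    (fun J hJ d a γ ha => by simp only [c1 J hJ d a γ ha, map_add])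
    (fun J hJ γ => by simp only [← c2 J hJ γ]) fun P hP h1 hp => by
      have e : P = C.I₀ := by
        by_contra hne
        exact h1 ⟨hP, hne⟩
      subst e
      refine ⟨⟨hP, hp, C.rel₀⟩, fun d a ha ha' => adj₀_mem ha ha', fun d a b γ ha hb ha' hb' => ?_⟩
      rw [← sub_eq_zero, ← map_sub, QuotientAddGroup.mk'_apply, QuotientAddGroup.eq_zero_iff,
        twist c1 c2 ha hb ha' hb']
      exact ⟨d, a, b, ha, hb, ha', hb', rfl⟩
  have reg : ∀ d a b, C.A.H d a → C.A.H d b → a ∉ C.I₀ → b ∉ C.I₀ →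
      z (adj C.I₀ a) 0 = z (adj C.I₀ b) 0 → ψ (adj C.I₀ b) 0 = ψ (adj (adj C.I₀ b) a) 0 := by
    intro d a b ha hb ha' hb' hz
    rcases hn d a b ha hb ha' hb' with h | ⟨Q, e, r, s, hQ, hr, hs, hrQ, hsQ, hrel⟩
    · rw [p1 _ (adj₀_mem hb hb') d a 0 ha, p3 _ (C.Um_sub h), hm _ h, add_zero]
    · exfalso
      have hs' : s ∉ C.I₀ := fun h => hsQ (hQ.1.1.2 h)
      have k1 := C.pr₀.mul_notMem hb hs hb' hs'
      have hr' : r ∉ C.I₀ := fun h => k1 (by
        have := C.I₀.add_mem hrel (C.I₀.mul_mem_left a h)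
        rwa [sub_add_cancel] at this)
      have k2 := C.pr₀.mul_notMem ha hr ha' hr'
      have e1 : adj C.I₀ (b * s) = adj C.I₀ (a * r) :=
        le_antisymm (adj_le (le_adj _ _) (mem_adj.2 ⟨1, by simpa using hrel⟩))
          (adj_le (le_adj _ _) (mem_adj.2 ⟨1, by
            have := C.I₀.neg_mem hrel
            simpa using this⟩))
      have e2 := mul_rule C.pr₀ C.hom₀ hb hb' (z1 _ (adj₀_mem (C.A.H_mul hb hs) k1)) 0
      have e3 := mul_rule C.pr₀ C.hom₀ ha ha' (z1 _ (adj₀_mem (C.A.H_mul ha hr) k2)) 0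
      rw [e1, e3, hz] at e2
      have e4 := congrFun (add_left_cancel e2) Q
      have e5 := (z4 Q hQ _ (adj₀_mem hr hr') (0 + d)).1 (adj_le hQ.1.1.2 hrQ)
      have e6 := (z4 Q hQ _ (adj₀_mem hs hs') (0 + d)).2 fun h => hsQ (h (self_mem_adj _ s))
      omega
  refine ⟨_, inferInstance, (QuotientAddGroup.mk' N).comp (AddMonoidHom.inr _ _), Ψ, ?_, q1,
    fun J hJ γ => ?_⟩
  · rw [injective_iff_map_eq_zero]
    intro g hg
    rw [AddMonoidHom.comp_apply, QuotientAddGroup.mk'_apply, QuotientAddGroup.eq_zero_iff] at hg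
    obtain ⟨d, a, b, ha, hb, ha', hb', e⟩ := hg
    have e1 : z (adj C.I₀ a) 0 = z (adj C.I₀ b) 0 := (sub_eq_zero.1 (congrArg Prod.fst e).symm)
    have e2 : g = ψ (adj C.I₀ a) 0 - ψ (adj C.I₀ b) 0 := congrArg Prod.snd e
    rw [e2, reg d a b ha hb ha' hb' e1, reg d b a hb ha hb' ha' e1.symm, adj_comm, sub_self]
  · have hJ1 : J ∈ C.U1 := ⟨hJ.1, fun e => hbig (e ▸ hJ)⟩
    rw [q3 J hJ1]
    simp only [hχ, z2 J hJ γ, p3 J hJ]
    rfl

end Ctx

end Crest.Agent.N265.Psi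
end

-- ▼ part N265/Psi/Mod
section

/-!
# Row 265, PSI part 2 (helper25): from cyclically additive functions to additive functions

A cyclically additive `Ψ` on a family `U` of homogeneous ideals gives an invariant `psi Ψ g` of
graded modules `(M, g)` generated by finitely many homogeneous elements all of whose
annihilators lie in `U`; it is additive in short exact sequences (`psi_exact`), and on a cyclic
module it is `Ψ (Ann m) (deg m)` (`psi_cyclic`).
-/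

set_option autoImplicit false
set_option linter.unusedSectionVars false

namespace Crest.Agent.N265.Psi

variable {Γ : Type*} [AddCommGroup Γ] {R : Type*} [CommRing R] {G : Type*} [AddCommGroup G]
  {M : Type*} [AddCommGroup M] [Module R M] {M' : Type*} [AddCommGroup M'] [Module R M']
  {M'' : Type*} [AddCommGroup M''] [Module R M'']

/-- `N + R m₁ + ⋯ + R m_r` -/
def adjL (N : Submodule R M) : List (Γ × M) → Submodule R M
  | [] => N
  | x :: l => adjL (adj N x.2) l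

/-- the sum over the cyclic quotients of the filtration given by a list -/
def lsum (Ψ : Ideal R → Γ → G) (N : Submodule R M) : List (Γ × M) → G
  | [] => 0
  | x :: l => Ψ (col N x.2) x.1 + lsum Ψ (adj N x.2) l

/-- a list of homogeneous elements with their degrees -/
def Gr.HL (g : Gr Γ M) (l : List (Γ × M)) : Prop := ∀ x ∈ l, g.H x.1 x.2

theorem le_adjL (N : Submodule R M) (l : List (Γ × M)) : N ≤ adjL N l := by
  induction l generalizing N with
  | nil => exact le_rfl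
  | cons x l ih => exact (le_adj N x.2).trans (ih _)

theorem mem_adjL (N : Submodule R M) {l : List (Γ × M)} {x : Γ × M} (hx : x ∈ l) :
    x.2 ∈ adjL N l := by
  induction l generalizing N with
  | nil => simp at hx
  | cons y l ih =>
    rcases List.mem_cons.1 hx with rfl | h
    · exact le_adjL _ l (self_mem_adj N x.2)
    · exact ih _ h


theorem adjL_append (N : Submodule R M) (l l' : List (Γ × M)) :
    adjL N (l ++ l') = adjL (adjL N l) l' := by
  induction l generalizing N with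
  | nil => rfl
  | cons x l ih => exact ih _

theorem lsum_append (Ψ : Ideal R → Γ → G) (N : Submodule R M) (l l' : List (Γ × M)) :
    lsum Ψ N (l ++ l') = lsum Ψ N l + lsum Ψ (adjL N l) l' := by
  induction l generalizing N with
  | nil => simp [lsum, adjL]
  | cons x l ih => simp only [List.cons_append, lsum, adjL, ih, add_assoc]

theorem lsum_of_mem {Ψ : Ideal R → Γ → G} (h0 : ∀ γ, Ψ ⊤ γ = 0) {N : Submodule R M}
    {l : List (Γ × M)} (hl : ∀ x ∈ l, x.2 ∈ N) : lsum Ψ N l = 0 := by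
  induction l with
  | nil => rfl
  | cons x l ih =>
    have hx := hl x List.mem_cons_self
    simp only [lsum, col_of_mem hx, adj_of_mem hx, h0, zero_add]
    exact ih fun y hy => hl y (List.mem_cons_of_mem _ hy)

variable {A : GrR Γ R} {U : Set (Ideal R)} {Ψ : Ideal R → Γ → G}

/-- a graded module whose cyclic submodules have annihilators in `U` -/
structure Adm (A : GrR Γ R) (U : Set (Ideal R)) (g : Gr Γ M) : Prop where
  compat : Compat A.toGr g
  ann : ∀ j (m : M), g.H j m → col (⊥ : Submodule R M) m ∈ U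

variable {g : Gr Γ M} {g' : Gr Γ M'} {g'' : Gr Γ M''}

theorem Adm.col_mem (hU : Fam A U) (h : Adm A U g) {N : Submodule R M} (hN : g.HS N) {j : Γ}
    {m : M} (hm : g.H j m) : col N m ∈ U :=
  hU.up _ (h.ann j m hm) _ (h.compat.HS_col hN hm) (col_mono bot_le m)

theorem swap_step (hU : Fam A U) (hΨ : CycAdd A U Ψ) (h : Adm A U g) {N : Submodule R M}
    (hN : g.HS N) {j j' : Γ} {m m' : M} (hm : g.H j m) (hm' : g.H j' m') :
    Ψ (col N m) j + Ψ (col (adj N m) m') j' = Ψ (col N m') j' + Ψ (col (adj N m') m) j := by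
  have e := transfer hU (Ψ := Ψ) (rel N m m') (j - j') j' (col (adj N m') m) (col (adj N m) m')
    (h.compat.HS_col (h.compat.HS_adj hN hm') hm)
    (fun x y hxy => by
      rw [mem_rel] at hxy
      refine ⟨mem_col.2 (mem_adj.2 ⟨y, hxy⟩), mem_col.2 (mem_adj.2 ⟨x, ?_⟩)⟩
      have := N.neg_mem hxy
      rwa [neg_sub] at this)
    (fun i x hx hxy => by
      obtain ⟨y, hy⟩ := mem_adj.1 (mem_col.1 hxy)
      obtain ⟨h1, h2⟩ := h.compat.partner hN hm hm' hx hy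
      exact ⟨_, h1, mem_rel.2 h2⟩)
    (fun y hy => by
      obtain ⟨x, hx⟩ := mem_adj.1 (mem_col.1 hy)
      refine ⟨x, mem_rel.2 ?_⟩
      have := N.neg_mem hx
      rwa [neg_sub] at this)
    (col N m) (h.col_mem hU hN hm) (col N m') (h.col_mem hU hN hm')
    (col_mono (le_adj N m') m) (col_mono (le_adj N m) m')
    (fun x y hxy => by
      rw [mem_rel] at hxy
      rw [mem_col, mem_col]
      constructor
      · intro hx
        have := N.sub_mem hx hxy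
        rwa [sub_sub_cancel] at this
      · intro hy
        have := N.add_mem hxy hy
        rwa [sub_add_cancel] at this)
    (fun J hJ _ => hΨ J hJ) (fun J hJ _ => hΨ J hJ)
  rw [add_sub_cancel, sub_eq_iff_eq_add] at e
  rw [e]
  abel

theorem lsum_perm (hU : Fam A U) (hΨ : CycAdd A U Ψ) (h : Adm A U g) {l l' : List (Γ × M)}
    (hp : l.Perm l') (hl : g.HL l) {N : Submodule R M} (hN : g.HS N) :
    lsum Ψ N l = lsum Ψ N l' := by
  induction hp generalizing N with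
  | nil => rfl
  | cons x _ ih =>
    simp only [lsum]
    rw [ih (fun y hy => hl y (List.mem_cons_of_mem _ hy))
      (h.compat.HS_adj hN (hl x List.mem_cons_self))]
  | swap x y l =>
    simp only [lsum]
    rw [adj_comm N y.2 x.2, ← add_assoc, ← add_assoc,
      swap_step hU hΨ h hN (hl y List.mem_cons_self)
        (hl x (List.mem_cons_of_mem _ List.mem_cons_self))]
  | trans h1 _ ih1 ih2 =>
    rw [ih1 hl hN, ih2 (fun y hy => hl y (h1.symm.subset hy)) hN]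

theorem lsum_indep (hU : Fam A U) (hΨ : CycAdd A U Ψ) (h : Adm A U g) {l l' : List (Γ × M)}
    (hl : g.HL l) (hl' : g.HL l') {N : Submodule R M} (hN : g.HS N)
    (e : adjL N l = adjL N l') : lsum Ψ N l = lsum Ψ N l' := by
  have h0 := (hΨ ⊤ hU.top).top_eq_zero
  have h1 : lsum Ψ N (l ++ l') = lsum Ψ N l := by
    rw [lsum_append, lsum_of_mem h0 (N := adjL N l) (fun x hx => e ▸ mem_adjL N hx), add_zero]
  have h2 : lsum Ψ N (l' ++ l) = lsum Ψ N l' := by
    rw [lsum_append, lsum_of_mem h0 (N := adjL N l') (fun x hx => e ▸ mem_adjL N hx), add_zero]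
  rw [← h1, ← h2]
  refine lsum_perm hU hΨ h List.perm_append_comm (fun x hx => ?_) hN
  rcases List.mem_append.1 hx with hx | hx
  · exact hl x hx
  · exact hl' x hx

/-- generated by finitely many homogeneous elements -/
def Gr.FG (R : Type*) [CommRing R] [Module R M] (g : Gr Γ M) : Prop :=
  ∃ l : List (Γ × M), g.HL l ∧ adjL (⊥ : Submodule R M) l = ⊤

theorem Gr.fg_of_finite [Module.Finite R M] (g : Gr Γ M) : g.FG R := by
  classical
  obtain ⟨s, hs⟩ := Module.Finite.fg_top (R := R) (M := M)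
  choose t ht using g.sum
  refine ⟨(s.biUnion fun m => (t m).image fun i => (i, g.p i m)).toList, ?_, ?_⟩
  · intro x hx
    simp only [Finset.mem_toList, Finset.mem_biUnion, Finset.mem_image] at hx
    obtain ⟨m, -, i, -, rfl⟩ := hx
    exact g.H_p i m
  · rw [eq_top_iff, ← hs, Submodule.span_le]
    intro m hm
    rw [← ht m]
    refine Submodule.sum_mem _ fun i hi => ?_
    refine mem_adjL ⊥ (x := (i, g.p i m)) ?_
    simp only [Finset.mem_toList, Finset.mem_biUnion, Finset.mem_image]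
    exact ⟨m, hm, i, hi, rfl⟩

open Classical in
/-- the invariant of a graded module -/
noncomputable def psi (Ψ : Ideal R → Γ → G) (g : Gr Γ M) : G :=
  if h : g.FG R then lsum Ψ (⊥ : Submodule R M) h.choose else 0

theorem psi_eq (hU : Fam A U) (hΨ : CycAdd A U Ψ) (h : Adm A U g) {l : List (Γ × M)}
    (hl : g.HL l) (e : adjL (⊥ : Submodule R M) l = ⊤) :
    psi Ψ g = lsum Ψ (⊥ : Submodule R M) l := by
  have hfg : g.FG R := ⟨l, hl, e⟩
  unfold psi
  rw [dif_pos hfg]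
  exact lsum_indep hU hΨ h hfg.choose_spec.1 hl g.HS_bot (hfg.choose_spec.2.trans e.symm)

theorem psi_cyclic (hU : Fam A U) (hΨ : CycAdd A U Ψ) (h : Adm A U g) {j : Γ} {m : M}
    (hm : g.H j m) (e : Submodule.span R {m} = ⊤) :
    psi Ψ g = Ψ (col (⊥ : Submodule R M) m) j := by
  rw [psi_eq hU hΨ h (l := [(j, m)]) (fun x hx => by
    rw [List.mem_singleton.1 hx]
    exact hm) (by simp [adjL, adj, e])]
  simp [lsum]

/-- vanishing on modules all of whose cyclic subquotients are killed -/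
theorem psi_eq_zero {U₀ : Set (Ideal R)} (hU₀ : Fam A U₀) (h : Adm A U₀ g)
    (h0 : ∀ J ∈ U₀, ∀ γ, Ψ J γ = 0) : psi Ψ g = 0 := by
  unfold psi
  split_ifs with hfg
  · have key : ∀ (l : List (Γ × M)) (N : Submodule R M), g.HL l → g.HS N → lsum Ψ N l = 0 := by
      intro l
      induction l with
      | nil => intro _ _ _; rfl
      | cons x l ih =>
        intro N hl hN
        have hx := hl x List.mem_cons_self
        simp only [lsum]
        rw [h0 _ (h.col_mem hU₀ hN hx), zero_add]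
        exact ih _ (fun y hy => hl y (List.mem_cons_of_mem _ hy)) (h.compat.HS_adj hN hx)
    exact key _ _ hfg.choose_spec.1 g.HS_bot
  · rfl

theorem adjL_map (f : M' →ₗ[R] M) (N : Submodule R M') (l : List (Γ × M')) :
    adjL (N.map f) (l.map fun x => (x.1, f x.2)) = (adjL N l).map f := by
  induction l generalizing N with
  | nil => rfl
  | cons x l ih =>
    simp only [List.map_cons, adjL]
    rw [← ih]
    congr 1
    simp [adj, Submodule.map_sup, Submodule.map_span]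

theorem lsum_map_inj (Ψ : Ideal R → Γ → G) {f : M' →ₗ[R] M} (hf : Function.Injective f)
    (N : Submodule R M') (l : List (Γ × M')) :
    lsum Ψ (N.map f) (l.map fun x => (x.1, f x.2)) = lsum Ψ N l := by
  induction l generalizing N with
  | nil => rfl
  | cons x l ih =>
    simp only [List.map_cons, lsum]
    have e1 : col (N.map f) (f x.2) = col N x.2 := by
      ext r
      rw [mem_col, mem_col, ← map_smul]
      exact ⟨fun ⟨y, hy, e⟩ => hf e ▸ hy, fun hy => ⟨_, hy, rfl⟩⟩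
    have e2 : adj (N.map f) (f x.2) = (adj N x.2).map f := by
      simp [adj, Submodule.map_sup, Submodule.map_span]
    rw [e1, e2, ih]

theorem adj_comap (q : M →ₗ[R] M'') (N : Submodule R M'') (m : M) :
    adj (N.comap q) m = (adj N (q m)).comap q := by
  ext y
  rw [Submodule.mem_comap, mem_adj, mem_adj]
  simp

theorem adjL_comap (q : M →ₗ[R] M'') (N : Submodule R M'') (l : List (Γ × M)) :
    adjL (N.comap q) l = (adjL N (l.map fun x => (x.1, q x.2))).comap q := by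
  induction l generalizing N with
  | nil => rfl
  | cons x l ih =>
    simp only [List.map_cons, adjL]
    rw [adj_comap, ih]

theorem lsum_comap (Ψ : Ideal R → Γ → G) (q : M →ₗ[R] M'') (N : Submodule R M'')
    (l : List (Γ × M)) :
    lsum Ψ (N.comap q) l = lsum Ψ N (l.map fun x => (x.1, q x.2)) := by
  induction l generalizing N with
  | nil => rfl
  | cons x l ih =>
    simp only [List.map_cons, lsum]
    have e1 : col (N.comap q) x.2 = col N (q x.2) := by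
      ext r
      simp
    rw [e1, adj_comap, ih]

/-- **Additivity** in short exact sequences of graded modules. -/
theorem psi_exact (hU : Fam A U) (hΨ : CycAdd A U Ψ) (h : Adm A U g) (h' : Adm A U g')
    (h'' : Adm A U g'') (fg' : g'.FG R) (fg'' : g''.FG R) {f : M' →ₗ[R] M} {q : M →ₗ[R] M''}
    (hf : Function.Injective f) (hq : Function.Surjective q) (hfq : Function.Exact f q)
    (fh : ∀ j m, g'.H j m → g.H j (f m)) (qh : ∀ j m, q (g.p j m) = g''.p j (q m)) :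
    psi Ψ g = psi Ψ g' + psi Ψ g'' := by
  obtain ⟨l', hl', e'⟩ := fg'
  obtain ⟨l'', hl'', e''⟩ := fg''
  choose s hs using hq
  set l₂ : List (Γ × M) := l''.map fun x => (x.1, g.p x.1 (s x.2)) with hl₂
  have hmap : (l₂.map fun x => (x.1, q x.2)) = l'' := by
    rw [hl₂, List.map_map]
    conv_rhs => rw [← List.map_id l'']
    refine List.map_congr_left fun x hx => ?_
    simp only [Function.comp, id]
    rw [qh, hs, hl'' x hx]
  set l₁ : List (Γ × M) := l'.map fun x => (x.1, f x.2) with hl₁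
  have e1 : adjL (⊥ : Submodule R M) l₁ = (⊥ : Submodule R M'').comap q := by
    have := adjL_map f ⊥ l'
    rw [Submodule.map_bot, e', Submodule.map_top] at this
    rw [hl₁, this, Submodule.comap_bot]
    exact (LinearMap.exact_iff.1 hfq).symm
  have hH : g.HL (l₁ ++ l₂) := by
    intro x hx
    rcases List.mem_append.1 hx with hx | hx
    · obtain ⟨y, hy, rfl⟩ := List.mem_map.1 hx
      exact fh _ _ (hl' y hy)
    · obtain ⟨y, -, rfl⟩ := List.mem_map.1 hx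
      exact g.H_p _ _
  have etop : adjL (⊥ : Submodule R M) (l₁ ++ l₂) = ⊤ := by
    rw [adjL_append, e1, adjL_comap, hmap, e'', Submodule.comap_top]
  rw [psi_eq hU hΨ h hH etop, psi_eq hU hΨ h' hl' e', psi_eq hU hΨ h'' hl'' e'', lsum_append, e1,
    lsum_comap, hmap]
  congr 1
  have := lsum_map_inj Ψ hf ⊥ l'
  rwa [Submodule.map_bot] at this


end Crest.Agent.N265.Psi
private theorem rz_2b012886af : type_of% @_root_.Crest.Agent.N265.Psi.adjL.eq_def := @_root_.Crest.Agent.N265.Psi.adjL.eq_def -- L22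
private theorem rz_2c3a3a9c59 : type_of% @_root_.Crest.Agent.N265.Psi.adjL.eq_1 := @_root_.Crest.Agent.N265.Psi.adjL.eq_1 -- L22
private theorem rz_4d25328b36 : type_of% @_root_.Crest.Agent.N265.Psi.lsum.eq_def := @_root_.Crest.Agent.N265.Psi.lsum.eq_def -- L27
private theorem rz_564a70974b : type_of% @_root_.Crest.Agent.N265.Psi.lsum.eq_1 := @_root_.Crest.Agent.N265.Psi.lsum.eq_1 -- L27
end

-- ▼ part N265/Psi/Grad
section

/-!
# Row 265, PSI part 4 (helper25): the gradings of `R` and of a `GM` as projections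

`Dg` : a diagonalisable operator with eigenvalues `chi d`; `Dg.gr` its projections.
`grR : GrR D R`, `grM M : Gr D M.M`, `compat_grM`, stable submodules are homogeneous,
homogeneously prime ideals are prime, scaling of homogeneous polynomials.
-/

set_option autoImplicit false
set_option linter.unusedSectionVars false
noncomputable section
open MvPolynomial

namespace Crest.Agent.N265.Psi

section Dg

variable {M : Type*} [AddCommGroup M] [Module ℂ M]

/-- diagonalisable with eigenvalues `chi d` -/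
def Dg (g : M →ₗ[ℂ] M) : Prop :=
  ∀ m : M, m ∈ AddSubgroup.closure {m : M | ∃ d : D, g m = chi d • m}

/-- the eigenspace of degree `d` -/
abbrev eig (g : M →ₗ[ℂ] M) (d : D) : Submodule ℂ M := Module.End.eigenspace g (chi d)

theorem mem_eig {g : M →ₗ[ℂ] M} {d : D} {m : M} : m ∈ eig g d ↔ g m = chi d • m :=
  Module.End.mem_eigenspace_iff

theorem Dg.isInternal {g : M →ₗ[ℂ] M} (h : Dg g) : DirectSum.IsInternal (eig g) := by
  refine DirectSum.isInternal_submodule_of_iSupIndep_of_iSup_eq_top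
    ((Module.End.eigenspaces_iSupIndep g).comp chi_inj) ?_
  rw [eq_top_iff]
  intro m hm
  clear hm
  induction h m using AddSubgroup.closure_induction with
  | mem x hx =>
    obtain ⟨d, hd⟩ := hx
    exact Submodule.mem_iSup_of_mem d (mem_eig.2 hd)
  | zero => exact zero_mem _
  | add x y _ _ hx hy => exact add_mem hx hy
  | neg x _ hx => exact neg_mem hx

/-- the projections -/
def Dg.gr {g : M →ₗ[ℂ] M} (h : Dg g) : Gr D M :=
  letI := h.isInternal.chooseDecomposition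
  { p := fun d =>
      { toFun := fun m => (DirectSum.decompose (eig g) m d : M)
        map_zero' := by simp
        map_add' := by intro a b; simp }
    sum := fun m => by
      classical
      exact ⟨_, DirectSum.sum_support_decompose (eig g) m⟩
    idem := fun i m => DirectSum.decompose_of_mem_same (eig g) (SetLike.coe_mem _) }

theorem Dg.p_mem {g : M →ₗ[ℂ] M} (h : Dg g) (d : D) (m : M) : h.gr.p d m ∈ eig g d :=
  SetLike.coe_mem _

theorem Dg.p_same {g : M →ₗ[ℂ] M} (h : Dg g) {d : D} {m : M} (hm : m ∈ eig g d) :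
    h.gr.p d m = m :=
  letI := h.isInternal.chooseDecomposition
  DirectSum.decompose_of_mem_same (eig g) hm

theorem Dg.p_ne {g : M →ₗ[ℂ] M} (h : Dg g) {d d' : D} {m : M} (hm : m ∈ eig g d) (hd : d ≠ d') :
    h.gr.p d' m = 0 :=
  letI := h.isInternal.chooseDecomposition
  DirectSum.decompose_of_mem_ne (eig g) hm hd

theorem Dg.H_iff {g : M →ₗ[ℂ] M} (h : Dg g) {d : D} {m : M} : h.gr.H d m ↔ m ∈ eig g d :=
  ⟨fun e => e ▸ h.p_mem d m, h.p_same⟩

/-- an additive map that shifts degrees commutes with the projections -/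
theorem Dg.map_p {M' : Type*} [AddCommGroup M'] [Module ℂ M'] {g : M →ₗ[ℂ] M}
    {g' : M' →ₗ[ℂ] M'} (h : Dg g) (h' : Dg g') (f : M →+ M') (j : D)
    (hf : ∀ i, ∀ m ∈ eig g i, f m ∈ eig g' (i + j)) (i : D) (m : M) :
    h'.gr.p (i + j) (f m) = f (h.gr.p i m) := by
  induction h m using AddSubgroup.closure_induction with
  | mem x hx =>
    obtain ⟨d, hd⟩ := hx
    have hx := mem_eig.2 hd
    by_cases e : d = i
    · subst e
      rw [h.p_same hx, h'.p_same (hf d x hx)]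
    · rw [h.p_ne hx e, h'.p_ne (hf d x hx) fun e' => e (add_right_cancel e'), map_zero]
  | zero => simp
  | add x y _ _ hx hy => simp only [map_add, hx, hy]
  | neg x _ hx => simp only [map_neg, hx]

/-- stable subspaces contain the components of their elements -/
theorem Dg.p_mem_of_stab {g : M →ₗ[ℂ] M} (h : Dg g) (N : Submodule ℂ M)
    (hN : ∀ m ∈ N, g m ∈ N) (i : D) {m : M} (hm : m ∈ N) : h.gr.p i m ∈ N := by
  classical
  have key : ∀ (s : Finset D) (f : D → M), (∀ d, f d ∈ eig g d) → ∑ d ∈ s, f d ∈ N →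
      ∀ d ∈ s, f d ∈ N := by
    intro s
    induction s using Finset.induction_on with
    | empty => simp
    | insert a s ha ih =>
      intro f hf hs
      have h1 : ∑ d ∈ s, (chi d - chi a) • f d ∈ N := by
        have h2 := N.sub_mem (hN _ hs) (N.smul_mem (chi a) hs)
        rw [map_sum, Finset.smul_sum, ← Finset.sum_sub_distrib, Finset.sum_insert ha,
          mem_eig.1 (hf a), sub_self, zero_add] at h2
        convert h2 using 2 with d
        rw [mem_eig.1 (hf d), sub_smul]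
      have h3 : ∀ d ∈ s, f d ∈ N := fun d hd => by
        have h4 := ih (fun d => (chi d - chi a) • f d) (fun d => Submodule.smul_mem _ _ (hf d)) h1
          d hd
        have h5 : chi d - chi a ≠ 0 := sub_ne_zero.2 fun e => ha (chi_inj e ▸ hd)
        exact (N.smul_mem_iff h5).1 h4
      intro d hd
      rcases Finset.mem_insert.1 hd with rfl | hd
      · rw [Finset.sum_insert ha] at hs
        exact (N.add_mem_iff_left (N.sum_mem h3)).1 hs
      · exact h3 d hd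
  obtain ⟨s, hs⟩ := h.gr.sum m
  by_cases hi : i ∈ s
  · exact key s (fun d => h.gr.p d m) (fun d => h.p_mem d m) (hs.symm ▸ hm) i hi
  · rw [← hs, map_sum]
    refine N.sum_mem fun d hd => ?_
    have hne : d ≠ i := fun e => hi (e ▸ hd)
    rw [h.p_ne (h.p_mem d m) hne]
    exact zero_mem _

end Dg

/-! ### the ring `R` -/

/-- degree of a monomial -/
def mdeg (s : Var →₀ ℕ) : D := s.sum fun v n => n • vdeg v

theorem chi_nsmul (n : ℕ) (d : D) : chi (n • d) = chi d ^ n := by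
  induction n with
  | zero => simp
  | succ n ih => rw [succ_nsmul, chi_add, ih, pow_succ]

theorem gam_monomial (s : Var →₀ ℕ) (c : ℂ) :
    gam (monomial s c) = C (chi (mdeg s)) * monomial s c := by
  induction s using Finsupp.induction_linear generalizing c with
  | zero => simp [mdeg]
  | add s t hs ht =>
    have e : (monomial (s + t) c : R) = monomial s c * monomial t 1 := by
      rw [monomial_mul, mul_one]
    have e2 : mdeg (s + t) = mdeg s + mdeg t :=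
      Finsupp.sum_add_index' (fun _ => by simp) fun _ _ _ => add_smul _ _ _
    rw [e, map_mul, hs, ht, e2, chi_add, map_mul]
    ring
  | single v n =>
    have e : (monomial (Finsupp.single v n) c : R) = C c * X v ^ n := by
      rw [C_mul_X_pow_eq_monomial]
    have e2 : mdeg (Finsupp.single v n) = n • vdeg v := Finsupp.sum_single_index (by simp)
    rw [e, map_mul, map_pow, gam_C, gam_X, e2, chi_nsmul, map_pow]
    ring

theorem hmg_iff {d : D} {r : R} : Hmg d r ↔ r ∈ eig gamA.toLinearMap d := by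
  rw [mem_eig, smul_eq_C_mul]
  rfl

theorem dgR : Dg gamA.toLinearMap := by
  intro r
  induction r using MvPolynomial.induction_on' with
  | monomial s c =>
    exact AddSubgroup.subset_closure ⟨mdeg s, mem_eig.1 (hmg_iff.1 (gam_monomial s c))⟩
  | add p q hp hq => exact add_mem hp hq

theorem hmg_mul {d e : D} {a b : R} (ha : Hmg d a) (hb : Hmg e b) : Hmg (d + e) (a * b) := by
  unfold Hmg at *
  rw [map_mul, ha, hb, chi_add, map_mul]
  ring

theorem hmg_X (v : Var) : Hmg (vdeg v) (X v) := gam_X v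

theorem hmg_C (c : ℂ) : Hmg 0 (C c) := by simp [Hmg]

/-- the grading of `R` -/
def grR : GrR D R where
  toGr := dgR.gr
  compat := fun i j r m hm => by
    have := dgR.map_p dgR (AddMonoidHom.mulRight m) j (fun i x hx =>
      hmg_iff.1 (hmg_mul (hmg_iff.2 hx) (hmg_iff.2 (dgR.H_iff.1 hm)))) i r
    exact this
  one := dgR.H_iff.2 (hmg_iff.1 (hmg_C 1))

theorem H_iff {d : D} {r : R} : grR.H d r ↔ Hmg d r := dgR.H_iff.trans hmg_iff.symm

theorem HS_iff {J : Ideal R} : grR.HS J ↔ ∀ r ∈ J, gam r ∈ J := by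
  constructor
  · intro h r hr
    obtain ⟨s, hs⟩ := grR.sum r
    rw [← hs, map_sum]
    refine J.sum_mem fun d _ => ?_
    rw [H_iff.1 (grR.H_p d r)]
    exact J.mul_mem_left _ (h d r hr)
  · intro h i r hr
    exact dgR.p_mem_of_stab (J.restrictScalars ℂ) h i hr

theorem Hmg.mdeg_eq {d : D} {r : R} (h : Hmg d r) {s : Var →₀ ℕ} (hs : s ∈ r.support) :
    mdeg s = d := by
  have h1 : coeff s (gam r) = chi (mdeg s) * coeff s r := by
    classical
    conv_lhs => rw [r.as_sum, map_sum, coeff_sum]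
    rw [Finset.sum_eq_single s]
    · rw [gam_monomial, coeff_C_mul, coeff_monomial, if_pos rfl]
    · intro t _ ht
      rw [gam_monomial, coeff_C_mul, coeff_monomial, if_neg ht, mul_zero]
    · exact fun h => (h hs).elim
  rw [h, coeff_C_mul] at h1
  exact (chi_inj (mul_right_cancel₀ (mem_support_iff.1 hs) h1)).symm

theorem chiQ_pos (d : D) : 0 < chiQ d :=
  Finset.prod_pos fun i _ => zpow_pos (by exact_mod_cast (prm_prime i).pos) _

/-- homogeneously prime homogeneous ideals are prime -/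
theorem HPr.isPrime {P : Ideal R} (hP : HPr grR P) (hh : grR.HS P) : P.IsPrime := by
  classical
  refine ⟨hP.1, fun {x y} hxy => ?_⟩
  by_contra hc
  push Not at hc
  have key : ∀ x : R, x ∉ P → ∃ i, grR.p i x ∉ P ∧ ∀ k, chiQ i < chiQ k → grR.p k x ∈ P := by
    intro x hx
    obtain ⟨s, hs⟩ := grR.sum x
    have hne : (s.filter fun i => grR.p i x ∉ P).Nonempty := by
      by_contra h0
      rw [Finset.not_nonempty_iff_eq_empty, Finset.filter_eq_empty_iff] at h0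
      exact hx (hs ▸ P.sum_mem fun i hi => not_not.1 (h0 hi))
    obtain ⟨i, hi, hmax⟩ := Finset.exists_max_image _ chiQ hne
    refine ⟨i, (Finset.mem_filter.1 hi).2, fun k hk => ?_⟩
    by_contra hk'
    by_cases hks : k ∈ s
    · exact (hmax k (Finset.mem_filter.2 ⟨hks, hk'⟩)).not_gt hk
    · refine hk' ?_
      rw [← hs, map_sum]
      refine P.sum_mem fun d hd => ?_
      rw [show grR.p k (grR.p d x) = 0 from dgR.p_ne (dgR.p_mem d x) fun e => hks (e ▸ hd)]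
      exact zero_mem _
  obtain ⟨i, hi, hi'⟩ := key x hc.1
  obtain ⟨j, hj, hj'⟩ := key y hc.2
  obtain ⟨t, ht⟩ := grR.sum y
  have h1 := hh (i + j) _ hxy
  have h2 : grR.p (i + j) (x * y) = ∑ l ∈ t, grR.p (i + j - l) x * grR.p l y := by
    conv_lhs => rw [← ht, Finset.mul_sum, map_sum]
    exact Finset.sum_congr rfl fun l _ => grR.compat.p_smul (grR.H_p l y) _ _
  have h3 : ∀ l, l ≠ j → grR.p (i + j - l) x * grR.p l y ∈ P := by
    intro l hl
    rcases lt_trichotomy (chiQ l) (chiQ j) with h | h | h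
    · refine P.mul_mem_right _ (hi' _ ?_)
      have e : chiQ (i + j - l) * chiQ l = chiQ i * chiQ j := by
        rw [← chiQ_add, sub_add_cancel, chiQ_add]
      nlinarith [chiQ_pos l, chiQ_pos i, chiQ_pos (i + j - l)]
    · exact (hl (chi_inj (by simp [chi, h]))).elim
    · exact P.mul_mem_left _ (hj' _ h)
  have hjt : j ∈ t := by
    by_contra hjt
    refine hj ?_
    rw [← ht, map_sum]
    refine P.sum_mem fun d hd => ?_
    rw [show grR.p j (grR.p d y) = 0 from dgR.p_ne (dgR.p_mem d y) fun e => hjt (e ▸ hd)]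
    exact zero_mem _
  rw [h2, ← Finset.add_sum_erase t _ hjt, add_sub_cancel_right,
    P.add_mem_iff_left (P.sum_mem fun l hl => h3 l (Finset.ne_of_mem_erase hl))] at h1
  exact (hP.2 i j _ _ (grR.H_p i x) (grR.H_p j y) h1).elim hi hj

/-! ### graded modules -/

/-- the grading operator as a `ℂ`-linear map -/
def gL (M : GM) : M.M →ₗ[ℂ] M.M where
  toFun := M.g
  map_add' := map_add M.g
  map_smul' c m := by simp only [GM.c_smul, LinearMap.map_smulₛₗ, gam_C, RingHom.id_apply]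

theorem dgM (M : GM) : Dg (gL M) := M.diag

theorem mem_gr_iff {M : GM} {d : D} {m : M.M} : m ∈ M.gr d ↔ m ∈ eig (gL M) d := by
  rw [mem_eig]
  rfl

/-- the grading of a graded module -/
def grM (M : GM) : Gr D M.M := (dgM M).gr

theorem HM_iff {M : GM} {d : D} {m : M.M} : (grM M).H d m ↔ m ∈ M.gr d :=
  (dgM M).H_iff.trans mem_gr_iff.symm

theorem smul_mem_gr {M : GM} {i j : D} {r : R} {m : M.M} (hr : Hmg i r) (hm : m ∈ M.gr j) :
    r • m ∈ M.gr (i + j) := by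
  rw [GM.mem_gr] at hm ⊢
  rw [LinearMap.map_smulₛₗ, hr, hm, chi_add, map_mul, smul_smul, smul_smul]
  congr 1
  ring

theorem compat_grM (M : GM) : Compat grR.toGr (grM M) := fun i j r m hm =>
  dgR.map_p (dgM M) (LinearMap.toSpanSingleton R M.M m).toAddMonoidHom j
    (fun _ _ hx => mem_gr_iff.1 (smul_mem_gr (hmg_iff.2 hx) (HM_iff.1 hm))) i r

theorem deg0_mem_gr {M N : GM} {f : M.M →ₗ[R] N.M} (hf : GM.Deg0 f) {d : D} {m : M.M}
    (hm : m ∈ M.gr d) : f m ∈ N.gr d := by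
  rw [GM.mem_gr] at hm ⊢
  rw [← hf, hm, map_smul]

theorem deg0_p {M N : GM} {f : M.M →ₗ[R] N.M} (hf : GM.Deg0 f) (d : D) (m : M.M) :
    f ((grM M).p d m) = (grM N).p d (f m) := by
  have := (dgM M).map_p (dgM N) f.toAddMonoidHom 0
    (fun i x hx => by
      rw [add_zero]
      exact mem_gr_iff.1 (deg0_mem_gr hf (mem_gr_iff.2 hx))) d m
  rw [add_zero] at this
  exact this.symm

/-! ### points supported on the weight zero variables of one block -/

section Supp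

variable {K : Type*} [Field K] [Algebra ℂ K]

/-- supported on the weight zero variables of the block `b` -/
def Good (b : ℕ) (η : Var → K) : Prop := ∀ v : Var, η v ≠ 0 → v.1 = b ∧ v.2.2 = 0

theorem vdeg_good {b : ℕ} {v : Var} (h : v.1 = b ∧ v.2.2 = 0) : vdeg v = eB b := by
  simp [vdeg, h.1, h.2]

theorem mdeg_good {b : ℕ} {η : Var → K} (hη : Good b η) {s : Var →₀ ℕ} {c : ℂ}
    (h : aeval η (monomial s c : R) ≠ 0) : mdeg s = (s.sum fun _ n => n) • eB b := by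
  rw [aeval_monomial] at h
  have h1 := right_ne_zero_of_mul h
  rw [Finsupp.prod, Finset.prod_ne_zero_iff] at h1
  unfold mdeg Finsupp.sum
  rw [Finset.sum_smul]
  refine Finset.sum_congr rfl fun v hv => ?_
  show s v • vdeg v = s v • eB b
  rw [vdeg_good (hη v fun h0 => h1 v hv (by
    rw [h0]
    exact zero_pow (Finsupp.mem_support_iff.1 hv)))]

theorem nsmul_eB_inj {b : ℕ} {m n : ℕ} (h : m • eB b = n • eB b) : m = n := by
  have := congrArg (fun d : D => d (some b)) h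
  simpa [eB] using this

/-- a homogeneous polynomial that does not vanish at a good point has degree `n • eB b` -/
theorem Good.deg {b : ℕ} {η : Var → K} (hη : Good b η) {d : D} {a : R} (ha : Hmg d a)
    (h : aeval η a ≠ 0) : ∃ n : ℕ, d = n • eB b := by
  rw [a.as_sum, map_sum] at h
  obtain ⟨s, hs, h1⟩ := Finset.exists_ne_zero_of_sum_ne_zero h
  exact ⟨_, (Hmg.mdeg_eq ha hs).symm.trans (mdeg_good hη h1)⟩

/-- scaling -/
theorem Good.scale {b : ℕ} {η : Var → K} (hη : Good b η) {n : ℕ} {a : R}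
    (ha : Hmg (n • eB b) a) (c : K) : aeval (c • η) a = c ^ n * aeval η a := by
  rw [a.as_sum, map_sum, map_sum, Finset.mul_sum]
  refine Finset.sum_congr rfl fun s hs => ?_
  have e : aeval (c • η) (monomial s (coeff s a) : R) =
      c ^ (s.sum fun _ n => n) * aeval η (monomial s (coeff s a) : R) := by
    rw [aeval_monomial, aeval_monomial]
    simp only [Finsupp.prod, Finsupp.sum, Pi.smul_apply, smul_eq_mul, mul_pow,
      Finset.prod_mul_distrib, Finset.prod_pow_eq_pow_sum]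
    ring
  rw [e]
  by_cases h0 : aeval η (monomial s (coeff s a) : R) = 0
  · rw [h0, mul_zero, mul_zero]
  · rw [nsmul_eB_inj ((mdeg_good hη h0).symm.trans (Hmg.mdeg_eq ha hs))]

theorem Good.smul {b : ℕ} {η : Var → K} (hη : Good b η) (c : K) : Good b (c • η) :=
  fun v hv => hη v fun h0 => hv (by simp [h0])

theorem Good.scale_eq_zero {b : ℕ} {η : Var → K} (hη : Good b η) {d : D} {a : R} (ha : Hmg d a)
    (h : aeval η a = 0) (c : K) : aeval (c • η) a = 0 := by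
  by_contra h0
  obtain ⟨n, rfl⟩ := (hη.smul c).deg ha h0
  rw [hη.scale ha, h, mul_zero] at h0
  exact h0 rfl

end Supp

end Crest.Agent.N265.Psi
end
end

-- ▼ part N265/Psi/Srf
section

/-!
# Row 265, PSI part 5 (helper25): the abstract setting `Ctx` of a surface `S`

`ctx h : Ctx D R` for `h : SurfOK S b`; relevant primes, points `lineI x`, dimension, normality.
-/

set_option autoImplicit false
set_option linter.unusedSectionVars false
noncomputable section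
open MvPolynomial

namespace Crest.Agent.N265.Psi

open Crest.Agent.N265.Jac

variable {b : ℕ}

section Pts

variable {x y : Pt}

theorem Good.hmg_mem_lineI (hx : Good b x) {d : D} {a : R} (ha : Hmg d a) :
    a ∈ lineI x ↔ eval x a = 0 :=
  ⟨fun h => by simpa using h 1 one_ne_zero, fun h c _ => hx.scale_eq_zero ha h c⟩

theorem Good.gpt_eq (hx : Good b x) : gpt x = chi (eB b) • x := by
  funext v
  by_cases h : x v = 0
  · simp [gpt, h]
  · simp [gpt, vdeg_good (hx v h)]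

theorem Good.lineI_HS (hx : Good b x) : grR.HS (lineI x) := HS_iff.2 fun r hr c hc => by
  rw [eval_gam, (hx.smul c).gpt_eq, smul_smul]
  exact hr _ (mul_ne_zero (chi_ne _) hc)

theorem lineI_le_mx (x : Pt) : lineI x ≤ mx x := fun r hr => by
  simpa [mem_mx] using hr 1 one_ne_zero

theorem Good.lineI_HPr (hx : Good b x) : HPr grR (lineI x) := by
  refine ⟨fun h => ?_, fun i j a a' ha ha' h => ?_⟩
  · have := lineI_le_mx x (h ▸ Submodule.mem_top : (1 : R) ∈ lineI x)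
    simp [mem_mx] at this
  · rw [hx.hmg_mem_lineI (H_iff.1 ha), hx.hmg_mem_lineI (H_iff.1 ha')]
    have := lineI_le_mx x h
    rwa [mem_mx, map_mul, mul_eq_zero] at this

theorem Good.le_lineI (hx : Good b x) {J : Ideal R} (hJ : grR.HS J) (h : J ≤ mx x) :
    J ≤ lineI x :=
  hJ.le_of_H fun _ _ ha haJ => (hx.hmg_mem_lineI (H_iff.1 ha)).2 (h haJ)

theorem lineI_smul (x : Pt) {c : ℂ} (hc : c ≠ 0) : lineI (c • x) = lineI x := by
  ext r
  simp only [mem_lineI, smul_smul]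
  refine ⟨fun h c' hc' => ?_, fun h c' hc' => h _ (mul_ne_zero hc' hc)⟩
  have := h (c' * c⁻¹) (mul_ne_zero hc' (inv_ne_zero hc))
  rwa [inv_mul_cancel_right₀ hc] at this

theorem eq_smul_of_lineI_le (hx : x ≠ 0) (hy : y ≠ 0) (h : lineI x ≤ lineI y) :
    ∃ c : ℂ, c ≠ 0 ∧ y = c • x := by
  obtain ⟨v, hv⟩ := Function.ne_iff.1 hx
  have hv' : x v ≠ 0 := hv
  have key : y = (y v / x v) • x := by
    funext w
    have h1 : (C (x v) * X w - C (x w) * X v : R) ∈ lineI x := fun c _ => by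
      simp only [map_sub, map_mul, eval_C, eval_X, Pi.smul_apply, smul_eq_mul]
      ring
    have h2 := lineI_le_mx y (h h1)
    simp only [mem_mx, map_sub, map_mul, eval_C, eval_X] at h2
    simp only [Pi.smul_apply, smul_eq_mul]
    field_simp
    linear_combination h2
  refine ⟨_, fun h0 => hy ?_, key⟩
  rw [key, h0, zero_smul]

end Pts

theorem wf_of_finJ {I : Ideal R} (hI : FinJ I) :
    WellFounded fun X Y : Ideal R => I ≤ Y ∧ Y < X := by
  have := hI.noeth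
  have hwf : WellFounded fun X Y : Ideal (R ⧸ I) => Y < X := wellFounded_gt
  refine Subrelation.wf (r := InvImage (fun X Y : Ideal (R ⧸ I) => Y < X)
    (Ideal.map (Ideal.Quotient.mk I))) (fun {X Y} h => ?_) (InvImage.wf _ hwf)
  refine lt_of_le_of_ne (Ideal.map_mono h.2.le) fun e => h.2.ne ?_
  have h1 := congrArg (Ideal.comap (Ideal.Quotient.mk I)) e
  rw [Ideal.comap_map_of_surjective _ Ideal.Quotient.mk_surjective,
    Ideal.comap_map_of_surjective _ Ideal.Quotient.mk_surjective, ← RingHom.ker_eq_comap_bot,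
    Ideal.mk_ker, sup_of_le_left h.1, sup_of_le_left (h.1.trans h.2.le)] at h1
  exact h1

variable {S : Spc}

theorem I_HS (S : Spc) : grR.HS S.I := HS_iff.2 fun _ => Spc.gam_mem_I

theorem _root_.Crest.Agent.N265.SurfOK.good (h : SurfOK S b) {x : Pt} (hx : x ∈ S.pts) :
    Good b x := by
  intro v hv
  obtain ⟨V, hV, h1⟩ := S.fin
  have h2 : v ∈ V := by
    by_contra h3
    exact hv (h1 x hx v h3)
  exact ⟨by simpa [h.blk] using hV v h2, h.wt0 x hx v hv⟩

theorem _root_.Crest.Agent.N265.SurfOK.rel_iff (h : SurfOK S b) {x : Pt} :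
    Rel S.B x ↔ ∃ v : Var, v.1 = b ∧ x v ≠ 0 := by
  simp [Rel, h.blk]

theorem _root_.Crest.Agent.N265.SurfOK.ne_zero (h : SurfOK S b) {x : Pt} (hx : x ∈ S.pts) :
    x ≠ 0 := by
  obtain ⟨v, -, hv⟩ := h.rel_iff.1 (S.rel x hx)
  exact fun e => hv (congrFun e v)

theorem _root_.Crest.Agent.N265.SurfOK.I_le (h : SurfOK S b) {x : Pt} (hx : x ∈ S.pts) :
    S.I ≤ lineI x := (h.good hx).le_lineI (I_HS S) (I_le_mx hx)

theorem _root_.Crest.Agent.N265.SurfOK.smul_mem (h : SurfOK S b) {x : Pt} (hx : x ∈ S.pts) {c : ℂ}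
    (hc : c ≠ 0) : c • x ∈ S.pts := by
  obtain ⟨v, hv, hv'⟩ := h.rel_iff.1 (S.rel x hx)
  exact S.closed _ (h.rel_iff.2 ⟨v, hv, by simp [hc, hv']⟩) fun r hr => h.I_le hx hr c hc

theorem _root_.Crest.Agent.N265.SurfOK.nonempty (h : SurfOK S b) : S.pts.Nonempty := by
  by_contra h0
  rw [Set.not_nonempty_iff_eq_empty] at h0
  exact h.irr.ne_top ((Ideal.eq_top_iff_one _).2 fun x hx => by simp [h0] at hx)

theorem _root_.Crest.Agent.N265.SurfOK.good_var (h : SurfOK S b) {v : Var} (hv : (X v : R) ∉ S.I) :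
    v.1 = b ∧ v.2.2 = 0 := by
  by_contra h0
  refine hv fun x hx => ?_
  rw [eval_X]
  by_contra h1
  exact h0 (h.good hx v h1)

theorem _root_.Crest.Agent.N265.SurfOK.deg (h : SurfOK S b) {d : D} {a : R} (ha : Hmg d a)
    (h0 : a ∉ S.I) : ∃ n : ℕ, d = n • eB b := by
  have : ∃ x ∈ S.pts, eval x a ≠ 0 := by
    by_contra h1
    push Not at h1
    exact h0 h1
  obtain ⟨x, hx, h1⟩ := this
  exact (h.good hx).deg ha h1

/-- the abstract setting attached to a surface -/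
def ctx (h : SurfOK S b) : Ctx D R where
  A := grR
  e := eB b
  π := Finsupp.applyAddHom (some b)
  πe := by simp [eB]
  I₀ := S.I
  hom₀ := I_HS S
  pr₀ := HPr.of_isPrime h.irr
  L := {l | ∃ v : Var, (v.1 = b ∧ v.2.2 = 0) ∧ l = X v}
  hL := by
    rintro _ ⟨v, hv, rfl⟩
    rw [H_iff, ← vdeg_good hv]
    exact hmg_X v
  rel₀ := by
    obtain ⟨x, hx⟩ := h.nonempty
    obtain ⟨v, hv⟩ := Function.ne_iff.1 (h.ne_zero hx)
    exact ⟨X v, ⟨v, h.good hx v hv, rfl⟩, fun h0 => hv (by simpa using h0 x hx)⟩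
  deg d a ha h0 := h.deg (H_iff.1 ha) h0
  wf := Subrelation.wf (fun hxy => ⟨hxy.1.2, hxy.2⟩) (wf_of_finJ (finJ_I S))

variable (h : SurfOK S b)

theorem rp_iff {P : Ideal R} : (ctx h).RP P ↔ RPr S P := by
  constructor
  · rintro ⟨⟨h1, h2⟩, h3, _, ⟨v, -, rfl⟩, h4⟩
    exact ⟨h3.isPrime h1, HS_iff.1 h1, h2, v, h4⟩
  · rintro ⟨h1, h2, h3, v, h4⟩
    exact ⟨⟨HS_iff.2 h2, h3⟩, HPr.of_isPrime h1, X v,
      ⟨v, h.good_var fun h0 => h4 (h3 h0), rfl⟩, h4⟩

variable {h}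

theorem RP.exists_pt {P : Ideal R} (hP : (ctx h).RP P) : ∃ x ∈ S.pts, P ≤ lineI x := by
  obtain ⟨⟨h1, h2⟩, h3, _, ⟨v, hv, rfl⟩, h4⟩ := hP
  have : ∃ y : Pt, P ≤ mx y ∧ eval y (X v) ≠ 0 := by
    by_contra h0
    push Not at h0
    obtain ⟨k, hk⟩ := nss ((finJ_I S).mono h2) h0
    exact h4 ((h3.isPrime h1).mem_of_pow_mem k hk)
  obtain ⟨y, hy, hv'⟩ := this
  have hy' : y ∈ S.pts :=
    S.closed y (h.rel_iff.2 ⟨v, hv.1, by simpa using hv'⟩) fun r hr => hy (h2 hr)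
  exact ⟨y, hy', (h.good hy').le_lineI h1 hy⟩

variable (h)

theorem rp_lineI {x : Pt} (hx : x ∈ S.pts) : (ctx h).RP (lineI x) := by
  obtain ⟨v, hv⟩ := Function.ne_iff.1 (h.ne_zero hx)
  refine ⟨⟨(h.good hx).lineI_HS, h.I_le hx⟩, (h.good hx).lineI_HPr, X v,
    ⟨v, h.good hx v hv, rfl⟩, fun h0 => hv ?_⟩
  simpa [mem_mx] using lineI_le_mx x h0

include h in
theorem lineI_eq_of_le {x y : Pt} (hx : x ∈ S.pts) (hy : y ∈ S.pts) (hle : lineI x ≤ lineI y) :
    lineI y = lineI x := by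
  obtain ⟨c, hc, rfl⟩ := eq_smul_of_lineI_le (h.ne_zero hx) (h.ne_zero hy) hle
  exact lineI_smul x hc

theorem isPt_lineI {x : Pt} (hx : x ∈ S.pts) : (ctx h).IsPt (lineI x) := by
  refine ⟨rp_lineI h hx, fun P hP hlt => ?_⟩
  obtain ⟨y, hy, hle⟩ := RP.exists_pt hP
  exact (hlt.trans_le hle).ne' (lineI_eq_of_le h hx hy (hlt.le.trans hle))

theorem isPt_iff {P : Ideal R} : (ctx h).IsPt P ↔ ∃ x ∈ S.pts, P = lineI x := by
  constructor
  · intro hP
    obtain ⟨x, hx, hle⟩ := RP.exists_pt hP.1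
    exact ⟨x, hx, hle.eq_of_not_lt (hP.2 _ (rp_lineI h hx))⟩
  · rintro ⟨x, hx, rfl⟩
    exact isPt_lineI h hx

theorem mem_Um {J : Ideal R} (hJ : J ∈ (ctx h).U2) (h0 : ∀ x ∈ S.pts, ¬ J ≤ mx x) :
    J ∈ (ctx h).Um :=
  ⟨hJ, fun P hP hle => by
    obtain ⟨x, hx, h1⟩ := RP.exists_pt hP
    exact h0 x hx ((hle.trans h1).trans (lineI_le_mx x))⟩

theorem ctx_dim : (ctx h).Dim := fun Q P P' hQ hP hP' =>
  h.dim Q P P' ((rp_iff h).1 hQ) ((rp_iff h).1 hP) ((rp_iff h).1 hP')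

theorem ctx_nrm : (ctx h).Nrm := by
  intro d a a' ha ha' h1 h2
  rcases h.nrm d a a' (H_iff.1 ha) (H_iff.1 ha') h1 h2 with h3 |
    ⟨Q, P, e, r, s, hQ, hP, hlt, hr, hs, hrQ, hsQ, hrel⟩
  · refine Or.inl (mem_Um h ((ctx h).fam2.col_mem ((ctx h).fam2.adj_mem ⟨I_HS S, le_rfl⟩ ha') ha)
      fun x hx hle => ?_)
    obtain ⟨s, t, hs, hst⟩ := h3 x hx
    exact hs (hle (mem_col.2 (mem_adj.2 ⟨t, hst⟩)))
  · refine Or.inr ⟨Q, e, r, s, ⟨(rp_iff h).2 hQ, lt_of_le_of_ne hQ.le fun e => ?_,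
      fun h0 => h0.2 P ((rp_iff h).2 hP) hlt⟩, H_iff.2 hr, H_iff.2 hs, hrQ, hsQ, hrel⟩
    have e' : S.I = Q := e
    rw [← e'] at hrQ hsQ
    have := S.I.add_mem hrel (S.I.mul_mem_left a hrQ)
    rw [sub_add_cancel] at this
    exact (h.irr.mem_or_mem this).elim h2 hsQ

theorem ctx_big : (ctx h).I₀ ∉ (ctx h).U0 := fun h0 => by
  obtain ⟨x, hx, e⟩ := (isPt_iff h).1
    (h0.2 _ ⟨⟨(ctx h).hom₀, le_rfl⟩, (ctx h).pr₀, (ctx h).rel₀⟩ le_rfl)
  exact (h.big x hx).ne e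

end Crest.Agent.N265.Psi
end
end

-- ▼ part N265/Psi/Loc
section

/-!
# Row 265, PSI part 7 (helper25): the local ring of a curve at a point

`CD` : a `K`-point `ξ` specialising to `x`; `CD.O` the local ring, `CD.loc J` the localised ideal;
`len_eq` : the cycle of a zero-dimensional ideal on a curve is given by lengths.
-/

set_option autoImplicit false
set_option linter.unusedSectionVars false
noncomputable section
open MvPolynomial

namespace Crest.Agent.N265.Psi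

/-- colength of an ideal -/
def qlen {O : Type*} [CommRing O] (I : Ideal O) : ℕ∞ := Module.length O (O ⧸ I)

theorem qlen_max {O : Type*} [CommRing O] {I : Ideal O} (h : I.IsMaximal) : qlen I = 1 := by
  rw [qlen, Module.length_eq_one_iff, isSimpleModule_iff_isCoatom]
  exact Ideal.isMaximal_def.1 h

theorem qlen_top {O : Type*} [CommRing O] : qlen (⊤ : Ideal O) = 0 :=
  Module.length_eq_zero_iff.2 (Submodule.Quotient.subsingleton_iff.2 rfl)

theorem qlen_span {O : Type*} [CommRing O] (α : O) : qlen (adj (⊥ : Ideal O) α) = Ring.ord O α := by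
  rw [show adj (⊥ : Ideal O) α = Ideal.span {α} from bot_sup_eq _]
  rfl

theorem len_add {O : Type*} [CommRing O] (I : Ideal O) (α : O) :
    qlen I = qlen (adj I α) + qlen (col I α) := by
  rw [add_comm]
  refine Module.length_eq_add_of_exact
    (Submodule.mapQ (col I α) I (LinearMap.toSpanSingleton O O α) le_rfl)
    (Submodule.factor (le_adj I α)) ?_ (Submodule.factor_surjective _) fun y => ?_
  · rw [injective_iff_map_eq_zero]
    intro z hz
    obtain ⟨r, rfl⟩ := Submodule.Quotient.mk_surjective _ z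
    exact (Submodule.Quotient.mk_eq_zero _).2 (mem_col.2 ((Submodule.Quotient.mk_eq_zero I).1 hz))
  · obtain ⟨r, rfl⟩ := Submodule.Quotient.mk_surjective _ y
    refine Iff.trans (b := r ∈ adj I α) (Submodule.Quotient.mk_eq_zero _) ?_
    rw [mem_adj]
    constructor
    · rintro ⟨s, hs⟩
      exact ⟨Submodule.Quotient.mk s, ((Submodule.Quotient.eq I).2 hs).symm⟩
    · rintro ⟨z, hz⟩
      obtain ⟨s, rfl⟩ := Submodule.Quotient.mk_surjective _ z
      exact ⟨s, (Submodule.Quotient.eq I).1 hz.symm⟩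

theorem hmg_add {d : D} {a b : R} (ha : Hmg d a) (hb : Hmg d b) : Hmg d (a + b) := by
  unfold Hmg at *
  rw [map_add, ha, hb, mul_add]

theorem hmg_sub {d : D} {a b : R} (ha : Hmg d a) (hb : Hmg d b) : Hmg d (a - b) := by
  unfold Hmg at *
  rw [map_sub, ha, hb, mul_sub]

theorem hmg_zero (d : D) : Hmg d 0 := by simp [Hmg]

theorem hmg_one : Hmg 0 1 := by simp [Hmg]

theorem hmg_mul' {d e : D} {a b : R} (ha : Hmg d a) (hb : Hmg e b) : Hmg (e + d) (a * b) :=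
  add_comm d e ▸ hmg_mul ha hb

theorem hmg_Xpow {b : ℕ} {v : Var} (hv : v.1 = b ∧ v.2.2 = 0) (n : ℕ) :
    Hmg (n • eB b) (X v ^ n) :=
  H_iff.1 (grR.H_pow (H_iff.2 (vdeg_good hv ▸ hmg_X v)) n)

/-- a `K`-point specialising to a point -/
structure CD (b : ℕ) (K : Type) [Field K] [Algebra ℂ K] where
  ξ : Var → K
  x : Pt
  gξ : Good b ξ
  gx : Good b x
  sp : ∀ d a, Hmg d a → aeval ξ a = 0 → eval x a = 0
  x0 : x ≠ 0

namespace CD

variable {b : ℕ} {K : Type} [Field K] [Algebra ℂ K] (c : CD b K)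

/-- `f = a / s` -/
structure Rep (f : K) (d : D) (a s : R) : Prop where
  ha : Hmg d a
  hs : Hmg d s
  sx : eval c.x s ≠ 0
  eq : f * aeval c.ξ s = aeval c.ξ a

variable {c}

theorem Rep.ne {f : K} {d : D} {a s : R} (h : c.Rep f d a s) : aeval c.ξ s ≠ 0 :=
  fun h0 => h.sx (c.sp d s h.hs h0)

theorem Rep.mul {f f' : K} {d d' : D} {a s a' s' : R} (h : c.Rep f d a s)
    (h' : c.Rep f' d' a' s') : c.Rep (f * f') (d + d') (a * a') (s * s') :=
  ⟨hmg_mul h.ha h'.ha, hmg_mul h.hs h'.hs, by rw [map_mul]; exact mul_ne_zero h.sx h'.sx, by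
    rw [map_mul, map_mul, ← h.eq, ← h'.eq]
    ring⟩

theorem Rep.add {f f' : K} {d d' : D} {a s a' s' : R} (h : c.Rep f d a s)
    (h' : c.Rep f' d' a' s') : c.Rep (f + f') (d + d') (a * s' + a' * s) (s * s') :=
  ⟨hmg_add (hmg_mul h.ha h'.hs) (hmg_mul' h'.ha h.hs), hmg_mul h.hs h'.hs,
    by rw [map_mul]; exact mul_ne_zero h.sx h'.sx, by
    simp only [map_mul, map_add, ← h.eq, ← h'.eq]
    ring⟩

theorem Rep.scale {f : K} {d e : D} {a s t : R} (h : c.Rep f d a s) (ht : Hmg e t)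
    (htx : eval c.x t ≠ 0) : c.Rep f (e + d) (t * a) (t * s) :=
  ⟨hmg_mul ht h.ha, hmg_mul ht h.hs, by rw [map_mul]; exact mul_ne_zero htx h.sx, by
    rw [map_mul, map_mul, ← h.eq]
    ring⟩

theorem rep_div {d : D} {a s : R} (ha : Hmg d a) (hs : Hmg d s) (sx : eval c.x s ≠ 0) :
    c.Rep (aeval c.ξ a / aeval c.ξ s) d a s :=
  ⟨ha, hs, sx, div_mul_cancel₀ _ fun h0 => sx (c.sp d s hs h0)⟩

theorem Rep.inv {f : K} {d : D} {a s : R} (h : c.Rep f d a s) (ax : eval c.x a ≠ 0) :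
    f ≠ 0 ∧ c.Rep f⁻¹ d s a := by
  have h1 : aeval c.ξ a ≠ 0 := fun h0 => ax (c.sp d a h.ha h0)
  have h2 : f ≠ 0 := fun h0 => h1 (by rw [← h.eq, h0, zero_mul])
  exact ⟨h2, h.hs, h.ha, ax, by rw [← h.eq, inv_mul_cancel_left₀ h2]⟩

/-- two representations are cross-related -/
theorem Rep.cross {f : K} {d d' : D} {a s a' s' : R} (h : c.Rep f d a s) (h' : c.Rep f d' a' s') :
    Hmg (d + d') (a * s' - a' * s) ∧ aeval c.ξ (a * s' - a' * s) = 0 :=
  ⟨hmg_sub (hmg_mul h.ha h'.hs) (hmg_mul' h'.ha h.hs), by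
    simp only [map_mul, map_sub, ← h.eq, ← h'.eq]
    ring⟩

theorem Rep.ne_of_inv {f : K} {d d' : D} {a s a' s' : R} (h : c.Rep f d a s) (hf : f ≠ 0)
    (h' : c.Rep f⁻¹ d' a' s') : eval c.x a ≠ 0 := by
  have h1 := h.mul h'
  rw [mul_inv_cancel₀ hf] at h1
  have h2 : c.Rep 1 0 1 1 := ⟨hmg_one, hmg_one, by simp, by simp⟩
  obtain ⟨h3, h4⟩ := h1.cross h2
  have h5 := c.sp _ _ h3 h4
  simp only [map_sub, map_mul, mul_one, one_mul, sub_eq_zero] at h5
  intro h0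
  rw [h0, zero_mul] at h5
  exact mul_ne_zero h.sx h'.sx h5.symm

variable (c)

theorem exists_den (n : ℕ) : ∃ s, Hmg (n • eB b) s ∧ eval c.x s ≠ 0 := by
  obtain ⟨v, hv⟩ := Function.ne_iff.1 c.x0
  exact ⟨X v ^ n, hmg_Xpow (c.gx v hv) n, by
    rw [map_pow, eval_X]
    exact pow_ne_zero n hv⟩

/-- the local ring -/
def O : Subalgebra ℂ K where
  carrier := {f | ∃ d a s, c.Rep f d a s}
  mul_mem' := by
    rintro f f' ⟨d, a, s, h⟩ ⟨d', a', s', h'⟩
    exact ⟨_, _, _, h.mul h'⟩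
  add_mem' := by
    rintro f f' ⟨d, a, s, h⟩ ⟨d', a', s', h'⟩
    exact ⟨_, _, _, h.add h'⟩
  algebraMap_mem' t := ⟨0, C t, 1, hmg_C t, hmg_one, by simp, by simp⟩

variable {c}

theorem Rep.mem {f : K} {d : D} {a s : R} (h : c.Rep f d a s) : f ∈ c.O := ⟨d, a, s, h⟩

theorem Rep.isUnit {f : c.O} {d : D} {a s : R} (h : c.Rep f d a s) (ax : eval c.x a ≠ 0) :
    IsUnit f :=
  IsUnit.of_mul_eq_one ⟨(f : K)⁻¹, (h.inv ax).2.mem⟩
    (Subtype.ext (mul_inv_cancel₀ (h.inv ax).1))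

instance : IsLocalRing c.O := by
  refine IsLocalRing.of_isUnit_or_isUnit_one_sub_self fun f => ?_
  obtain ⟨d, a, s, h⟩ := f.2
  by_cases ax : eval c.x a = 0
  · refine Or.inr (Rep.isUnit (d := d) (a := s - a) (s := s) ⟨hmg_sub h.hs h.ha, h.hs, h.sx, ?_⟩ ?_)
    · rw [map_sub, ← h.eq]
      push_cast
      ring
    · rw [map_sub, ax, sub_zero]
      exact h.sx
  · exact Or.inl (h.isUnit ax)

variable (c)

/-- the localisation of an ideal -/
def loc (J : Ideal R) : Ideal c.O where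
  carrier := {f | ∃ d a s, c.Rep f d a s ∧ a ∈ J}
  add_mem' := by
    rintro f f' ⟨d, a, s, h, ha⟩ ⟨d', a', s', h', ha'⟩
    exact ⟨_, _, _, h.add h', J.add_mem (J.mul_mem_right _ ha) (J.mul_mem_right _ ha')⟩
  zero_mem' := ⟨0, 0, 1, ⟨hmg_zero 0, hmg_one, by simp, by simp⟩, J.zero_mem⟩
  smul_mem' := by
    rintro g f ⟨d, a, s, h, ha⟩
    obtain ⟨d', a', s', h'⟩ := g.2
    exact ⟨_, _, _, h'.mul h, J.mul_mem_left _ ha⟩

/-- `J` contains the homogeneous ideal of `ξ` -/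
def Ker (J : Ideal R) : Prop := ∀ d a, Hmg d a → aeval c.ξ a = 0 → a ∈ J

variable {c}

theorem loc_mono {J J' : Ideal R} (h : J ≤ J') : c.loc J ≤ c.loc J' := by
  rintro f ⟨d, a, s, h1, h2⟩
  exact ⟨d, a, s, h1, h h2⟩

theorem loc_adj {J : Ideal R} (hJ : grR.HS J) {α : c.O} {d : D} {a s : R} (h : c.Rep α d a s) :
    c.loc (adj J a) = adj (c.loc J) α := by
  refine le_antisymm ?_ (adj_le (loc_mono (le_adj J a)) ⟨d, a, s, h, self_mem_adj J a⟩)
  rintro f ⟨d', a', s', h', ha'⟩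
  obtain ⟨r, hr⟩ := mem_adj.1 ha'
  obtain ⟨h1, h2⟩ := grR.compat.partner hJ (H_iff.2 h'.ha) (H_iff.2 h.ha) grR.one (y := r)
    (by rwa [one_smul])
  set r' := grR.p (0 + (d' - d)) r
  rw [one_smul, smul_eq_mul] at h2
  have e : 0 + (d' - d) + d = d' := by abel
  have h3 := rep_div (c := c) (e ▸ hmg_mul (H_iff.1 h1) h.hs) h'.hs h'.sx
  refine mem_adj.2 ⟨⟨_, h3.mem⟩, d', a' - r' * a, s',
    ⟨hmg_sub h'.ha (e ▸ hmg_mul (H_iff.1 h1) h.ha), h'.hs, h'.sx, ?_⟩, h2⟩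
  have h4 := h'.ne
  show ((f : K) - aeval c.ξ (r' * s) / aeval c.ξ s' * α) * aeval c.ξ s' = _
  rw [map_sub, map_mul, map_mul, ← h.eq, ← h'.eq]
  field_simp

theorem loc_col {J : Ideal R} (hJ : c.Ker J) {α : c.O} {d : D} {a s : R} (h : c.Rep α d a s) :
    c.loc (col J a) = col (c.loc J) α := by
  ext f
  rw [mem_col]
  constructor
  · rintro ⟨d', a', s', h', ha'⟩
    exact ⟨_, _, _, h'.mul h, mem_col.1 ha'⟩
  · rintro ⟨e, u, t, h1, hu⟩
    obtain ⟨d', a', s', h'⟩ := f.2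
    obtain ⟨h2, h3⟩ := (h'.mul h).cross h1
    refine ⟨_, _, _, h'.scale h1.hs h1.sx, mem_col.2 ?_⟩
    have h4 := J.add_mem (hJ _ _ h2 h3) (J.mul_mem_right (s' * s) hu)
    rw [sub_add_cancel] at h4
    rw [smul_eq_mul, show t * a' * a = a' * a * t by ring]
    exact h4

theorem loc_eq_top {J : Ideal R} (hJ : grR.HS J) (h : ¬ J ≤ lineI c.x) : c.loc J = ⊤ := by
  obtain ⟨d, s, hs, hsJ, hsx⟩ := hJ.exists_H h
  rw [c.gx.hmg_mem_lineI (H_iff.1 hs)] at hsx
  exact (Ideal.eq_top_iff_one _).2 ⟨d, s, s, ⟨H_iff.1 hs, H_iff.1 hs, hsx, by simp⟩, hsJ⟩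

theorem loc_isMaximal : (c.loc (lineI c.x)).IsMaximal := by
  rw [Ideal.isMaximal_iff]
  constructor
  · rintro ⟨d, a, s, h, ha⟩
    have h1 : c.Rep (1 : K)⁻¹ d a s := by
      rw [inv_one]
      exact h
    exact Rep.ne_of_inv (f := 1) h one_ne_zero h1 ((c.gx.hmg_mem_lineI h.ha).1 ha)
  · intro J f _ hf hfJ
    obtain ⟨d, a, s, h⟩ := f.2
    have h1 : eval c.x a ≠ 0 := fun h0 => hf ⟨d, a, s, h, (c.gx.hmg_mem_lineI h.ha).2 h0⟩
    rw [J.eq_top_of_isUnit_mem hfJ (h.isUnit h1)]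
    trivial

end CD

variable {b : ℕ} {S : Spc} {h : SurfOK S b}

theorem mem_U0_of_lt {Q J : Ideal R} (hQ : (ctx h).IsCv Q) (hJ : J ∈ (ctx h).U2) (hlt : Q < J) :
    J ∈ (ctx h).U0 :=
  ⟨hJ, fun P hP hle => ⟨hP, fun P' hP' => ctx_dim h Q P P' hQ.1 hP hP' hQ.2.1 (hlt.trans_le hle)⟩⟩

variable {Ψ : Ideal R → D → (Ideal R →₀ ℤ)}

/-- the support of the cycle of a zero-dimensional ideal -/
theorem supp_cyc (h1 : CycAdd grR (ctx h).U0 Ψ) (h2 : ∀ J ∈ (ctx h).Um, ∀ γ, Ψ J γ = 0)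
    (h3 : ∀ P, (ctx h).IsPt P → ∀ γ, Ψ P γ = Finsupp.single P 1) (P : Ideal R) :
    ∀ J ∈ (ctx h).U0, ∀ γ, Ψ J γ P ≠ 0 → (ctx h).IsPt P ∧ J ≤ P := by
  refine (ctx h).fam0.induction (fun γ h0 => ?_) (fun P' hP' hp γ h0 => ?_)
    fun J hJ d a γ ha i1 i2 h0 => ?_
  · rw [(h1 ⊤ (ctx h).fam0.top).top_eq_zero] at h0
    exact (h0 rfl).elim
  · by_cases hm : P' ∈ (ctx h).Um
    · rw [h2 P' hm] at h0
      exact (h0 rfl).elim
    · have h4 := Ctx.isPt_of hP' hm hp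
      rw [h3 P' h4] at h0
      have e : P = P' := by
        by_contra hne
        exact h0 (Finsupp.single_eq_of_ne hne)
      exact ⟨e ▸ h4, e.ge⟩
  · rw [h1 J hJ d a γ ha, Finsupp.add_apply] at h0
    by_cases h4 : Ψ (adj J a) γ P = 0
    · rw [h4, zero_add] at h0
      exact ⟨(i2 h0).1, (le_col J a).trans (i2 h0).2⟩
    · exact ⟨(i1 h4).1, (le_adj J a).trans (i1 h4).2⟩

/-- the multiplicities are lengths -/
theorem len_eq (h1 : CycAdd grR (ctx h).U0 Ψ) (h2 : ∀ J ∈ (ctx h).Um, ∀ γ, Ψ J γ = 0)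
    (h3 : ∀ P, (ctx h).IsPt P → ∀ γ, Ψ P γ = Finsupp.single P 1) {Q : Ideal R}
    (hQ : (ctx h).IsCv Q) {K : Type} [Field K] [Algebra ℂ K] (c : CD b K) (hx : c.x ∈ S.pts)
    (hK : c.Ker Q) : ∀ J ∈ {J | J ∈ (ctx h).U2 ∧ Q < J}, ∀ γ, ∃ n : ℕ,
      qlen (c.loc J) = n ∧ Ψ J γ (lineI c.x) = n := by
  have hF : Fam grR {J | J ∈ (ctx h).U2 ∧ Q < J} :=
    (ctx h).fam_of (fun _ hJ => hJ.1) ⟨(ctx h).top_mem, hQ.1.2.1.1.lt_top⟩
      fun _ hJ _ hJ' hle => ⟨hJ', hJ.2.trans_le hle⟩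
  have hno : ∀ J ∈ {J | J ∈ (ctx h).U2 ∧ Q < J}, ¬ J ≤ lineI c.x → ∀ γ, ∃ n : ℕ,
      qlen (c.loc J) = n ∧ Ψ J γ (lineI c.x) = n := by
    intro J hJ hle γ
    refine ⟨0, by rw [CD.loc_eq_top hJ.1.1 hle, qlen_top]; rfl, ?_⟩
    by_contra h0
    exact hle (supp_cyc h1 h2 h3 _ J (mem_U0_of_lt hQ hJ.1 hJ.2) γ h0).2
  refine hF.induction (fun γ => hno ⊤ hF.top (fun h0 => c.gx.lineI_HPr.1 (top_le_iff.1 h0)) γ)
    (fun P hP hp γ => ?_) fun J hJ d a γ ha i1 i2 => ?_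
  · by_cases hle : P ≤ lineI c.x
    · have h4 := (mem_U0_of_lt hQ hP.1 hP.2).2 P (Ctx.rp_of_le hP.1 hp (rp_lineI h hx) hle) le_rfl
      have e : P = lineI c.x := hle.eq_of_not_lt (h4.2 _ (rp_lineI h hx))
      refine ⟨1, by rw [e, qlen_max CD.loc_isMaximal]; rfl, ?_⟩
      rw [h3 P h4, e]
      simp
    · exact hno P hP hle γ
  · by_cases haJ : a ∈ J
    · rwa [adj_of_mem haJ] at i1
    have hKJ : c.Ker J := fun d a ha h0 => hJ.2.le (hK d a ha h0)
    obtain ⟨n, rfl⟩ := c.gξ.deg (H_iff.1 ha) fun h0 => haJ (hKJ _ a (H_iff.1 ha) h0)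
    obtain ⟨s, hs, sx⟩ := c.exists_den n
    have hr := CD.rep_div (c := c) (H_iff.1 ha) hs sx
    obtain ⟨n₁, e1, e1'⟩ := i1
    obtain ⟨n₂, e2, e2'⟩ := i2
    refine ⟨n₁ + n₂, ?_, ?_⟩
    · rw [len_add _ ⟨_, hr.mem⟩, ← CD.loc_adj hJ.1.1 (α := ⟨_, hr.mem⟩) hr,
        ← CD.loc_col hKJ (α := ⟨_, hr.mem⟩) hr, e1, e2, Nat.cast_add]
    · rw [h1 J (mem_U0_of_lt hQ hJ.1 hJ.2) _ a γ ha, Finsupp.add_apply, e1', e2', Nat.cast_add]

/-- the multiplicity of a principal ideal on a curve is the order of vanishing -/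
theorem ord_eq (h1 : CycAdd grR (ctx h).U0 Ψ) (h2 : ∀ J ∈ (ctx h).Um, ∀ γ, Ψ J γ = 0)
    (h3 : ∀ P, (ctx h).IsPt P → ∀ γ, Ψ P γ = Finsupp.single P 1) {Q : Ideal R}
    (hQ : (ctx h).IsCv Q) {K : Type} [Field K] [Algebra ℂ K] (c : CD b K) (hx : c.x ∈ S.pts)
    (hK : ∀ d a, Hmg d a → (aeval c.ξ a = 0 ↔ a ∈ Q)) {α : c.O} {d : D} {a s : R}
    (hr : c.Rep α d a s) (ha : a ∉ Q) (γ : D) :
    Ψ (adj Q a) γ (lineI c.x) = ((Ring.ord c.O α).toNat : ℤ) := by
  obtain ⟨n, e1, e2⟩ := len_eq h1 h2 h3 hQ c hx (fun d a ha => (hK d a ha).1) (adj Q a)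
    ⟨(ctx h).fam2.adj_mem hQ.1.1 (H_iff.2 hr.ha), lt_adj ha⟩ γ
  have e3 : c.loc Q = ⊥ := by
    rw [eq_bot_iff]
    rintro f ⟨d', a', s', h', ha'⟩
    have h4 := h'.eq
    rw [(hK _ _ h'.ha).2 ha', mul_eq_zero] at h4
    exact Subtype.ext (h4.resolve_right h'.ne)
  rw [CD.loc_adj hQ.1.1.1 hr, e3, qlen_span] at e1
  rw [e2, e1]
  simp

end Crest.Agent.N265.Psi
end
end

-- ▼ part N265/Psi/Cen
section

/-!
# Row 265, PSI part 8 (helper25): centres of places

`exists_cen` : every place of a curve on `S` has a centre; `CD.dom_iff` : a place dominates the local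
ring at `x` iff its centre is `x`; `CD.essFT` : the local ring is essentially of finite type.
-/

set_option autoImplicit false
set_option linter.unusedSectionVars false
noncomputable section
open MvPolynomial

namespace Crest.Agent.N265.Psi

open Crest.Agent.N265.Jac Crest.Agent.R013.RR7_948 Crest.Agent.R013.RR11_948
  Crest.Agent.R270.Crv_110

section Val

variable {K : Type} [Field K] [Algebra ℂ K] {P : Pl ℂ K}

theorem v_const_le (P : Pl ℂ K) (c : ℂ) : P.v (algebraMap ℂ K c) ≤ 1 := by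
  by_cases h : c = 0
  · simp [h]
  · exact (P.const c h).le

theorem v_le_of_near {f : K} {c : ℂ} (h : P.v (f - algebraMap ℂ K c) < 1) : P.v f ≤ 1 := by
  rw [← sub_add_cancel f (algebraMap ℂ K c)]
  exact P.v.map_add_le h.le (v_const_le P c)

theorem v_eq_of_near {f : K} {c : ℂ} (h : P.v (f - algebraMap ℂ K c) < 1) (hc : c ≠ 0) :
    P.v f = 1 := by
  rw [← P.const c hc] at h ⊢
  exact P.v.map_eq_of_sub_lt h

theorem near_aeval {η : Var → K} {y : Pt} (h : ∀ v, P.v (η v - algebraMap ℂ K (y v)) < 1) (r : R) :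
    P.v (aeval η r - algebraMap ℂ K (eval y r)) < 1 := by
  induction r using MvPolynomial.induction_on with
  | C c => simp
  | add p q hp hq =>
    rw [map_add, map_add, map_add, add_sub_add_comm]
    exact P.v.map_add_lt hp hq
  | mul_X p v hp =>
    have e : aeval η (p * X v) - algebraMap ℂ K (eval y (p * X v)) =
        (aeval η p - algebraMap ℂ K (eval y p)) * η v +
          algebraMap ℂ K (eval y p) * (η v - algebraMap ℂ K (y v)) := by
      simp only [map_mul, aeval_X, eval_X]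
      ring
    rw [e]
    refine P.v.map_add_lt ?_ ?_
    · rw [map_mul]
      exact mul_lt_one_of_lt_of_le hp (v_le_of_near (h v))
    · rw [map_mul, mul_comm]
      exact mul_lt_one_of_lt_of_le (h v) (v_const_le P _)

theorem eval_eq_zero_of_near {b : ℕ} {ξ : Var → K} (hξ : Good b ξ) {t : K} {y : Pt}
    (h : ∀ v, P.v (t * ξ v - algebraMap ℂ K (y v)) < 1) {d : D} {a : R} (ha : Hmg d a)
    (h0 : aeval ξ a = 0) : eval y a = 0 := by
  by_contra h1
  have h2 := v_eq_of_near (near_aeval (η := t • ξ) h a) h1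
  rw [hξ.scale_eq_zero ha h0, map_zero] at h2
  exact zero_ne_one h2

theorem fg_range {η : Var → K} (V : Finset Var) (h : ∀ v ∉ V, η v = 0) :
    (aeval η : R →ₐ[ℂ] K).range.FG := by
  rw [← Algebra.adjoin_range_eq_range_aeval, Subalgebra.fg_def]
  refine ⟨_, ((V.finite_toSet.image η).insert 0).subset ?_, rfl⟩
  rintro _ ⟨v, rfl⟩
  by_cases hv : v ∈ V
  · exact Or.inr ⟨v, hv, rfl⟩
  · exact Or.inl (h v hv)

theorem Good.cross_scale {b : ℕ} {ξ : Var → K} (hξ : Good b ξ) {f : K} {d : D} {a s : R}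
    (ha : Hmg d a) (hs : Hmg d s) (h0 : aeval ξ s ≠ 0) (e : f * aeval ξ s = aeval ξ a) (t : K) :
    f * aeval (t • ξ) s = aeval (t • ξ) a := by
  obtain ⟨n, rfl⟩ := hξ.deg hs h0
  rw [hξ.scale ha, hξ.scale hs, ← e]
  ring

namespace CD

variable {b : ℕ} {c : CD b K}

theorem Rep.smul_eq {f : K} {d : D} {a s : R} (h : c.Rep f d a s) (t : K) :
    f * aeval (t • c.ξ) s = aeval (t • c.ξ) a := c.gξ.cross_scale h.ha h.hs h.ne h.eq t

theorem dom_of_eq {t : K} {y : Pt} (hy : Good b y)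
    (h : ∀ v, P.v (t * c.ξ v - algebraMap ℂ K (y v)) < 1) (e : lineI y = lineI c.x) :
    Dom c.O P := by
  rintro f ⟨d, a, s, hr⟩
  have h1 : eval y s ≠ 0 := fun h0 =>
    hr.sx ((c.gx.hmg_mem_lineI hr.hs).1 (e ▸ (hy.hmg_mem_lineI hr.hs).2 h0))
  have h2 := congrArg P.v (hr.smul_eq t)
  rw [map_mul, v_eq_of_near (near_aeval (η := t • c.ξ) h s) h1, mul_one] at h2
  have h3 := near_aeval (η := t • c.ξ) h a
  refine ⟨h2 ▸ v_le_of_near h3, fun _ hf => ?_⟩
  have h4 : eval c.x a = 0 := by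
    by_contra h5
    exact hf (hr.inv h5).2.mem
  have h5 : eval y a = 0 := (hy.hmg_mem_lineI hr.ha).1 (e ▸ (c.gx.hmg_mem_lineI hr.ha).2 h4)
  rwa [h5, map_zero, sub_zero, ← h2] at h3

theorem le_of_dom {t : K} {y : Pt} (hy : Good b y)
    (h : ∀ v, P.v (t * c.ξ v - algebraMap ℂ K (y v)) < 1) (hd : Dom c.O P) :
    lineI c.x ≤ lineI y := by
  refine c.gx.lineI_HS.le_of_H fun d a ha hax => ?_
  rw [H_iff] at ha
  rw [hy.hmg_mem_lineI ha]
  by_contra h1
  have h2 := v_eq_of_near (near_aeval (η := t • c.ξ) h a) h1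
  have h3 : aeval (t • c.ξ) a ≠ 0 := fun h0 => by
    rw [h0, map_zero] at h2
    exact zero_ne_one h2
  obtain ⟨n, rfl⟩ := (c.gξ.smul t).deg ha h3
  obtain ⟨s, hs, sx⟩ := c.exists_den n
  have hr := rep_div (c := c) ha hs sx
  have h4 := hr.smul_eq t
  have h5 : aeval c.ξ a / aeval c.ξ s ≠ 0 := fun h0 => h3 (by rw [← h4, h0, zero_mul])
  have h6 := (hd _ hr.mem).2 h5 (by
    rintro ⟨d', a', s', h'⟩
    exact hr.ne_of_inv h5 h' ((c.gx.hmg_mem_lineI ha).1 hax))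
  rw [← h4, map_mul] at h2
  exact (mul_lt_one_of_lt_of_le h6 (v_le_of_near (near_aeval (η := t • c.ξ) h s))).ne h2

theorem essFT (V : Finset Var) (hV : ∀ v ∉ V, c.ξ v = 0)
    (gen : ∀ f : K, ∃ (d : D) (a s : R), Hmg d a ∧ Hmg d s ∧ aeval c.ξ s ≠ 0 ∧
      f * aeval c.ξ s = aeval c.ξ a) :
    ∃ A : Subalgebra ℂ K, A.FG ∧ IsFractionRing A K ∧ A ≤ c.O ∧
      ∀ f ∈ c.O, ∃ s ∈ A, s ≠ 0 ∧ s⁻¹ ∈ c.O ∧ f * s ∈ A := by
  obtain ⟨w, hw⟩ := Function.ne_iff.1 c.x0
  have hw' : c.x w ≠ 0 := hw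
  have gw := c.gx w hw'
  have hξ : c.ξ w ≠ 0 := fun h0 => hw' (by simpa using c.sp _ _ (hmg_X w) (by simpa using h0))
  have key : ∀ (n : ℕ) (s : R), Hmg (n • eB b) s →
      c.Rep (aeval ((c.ξ w)⁻¹ • c.ξ) s) (n • eB b) s (X w ^ n) := fun n s hs =>
    ⟨hs, hmg_Xpow gw n, by rw [map_pow, eval_X]; exact pow_ne_zero n hw', by
      rw [c.gξ.scale hs, map_pow, aeval_X, inv_pow]
      field_simp⟩
  have hne : ∀ d s, Hmg d s → aeval c.ξ s ≠ 0 → aeval ((c.ξ w)⁻¹ • c.ξ) s ≠ 0 := by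
    intro d s hs h0 h1
    have := (c.gξ.smul _).scale_eq_zero hs h1 (c.ξ w)
    rw [smul_smul, mul_inv_cancel₀ hξ, one_smul] at this
    exact h0 this
  refine ⟨(aeval ((c.ξ w)⁻¹ • c.ξ) : R →ₐ[ℂ] K).range, fg_range V fun v hv => by simp [hV v hv],
    IsFractionRing.of_field _ _ fun f => ?_, ?_, ?_⟩
  · obtain ⟨d, a, s, ha, hs, h0, e⟩ := gen f
    refine ⟨⟨_, a, rfl⟩, ⟨_, s, rfl⟩, ?_⟩
    exact (eq_div_iff (hne d s hs h0)).2 (c.gξ.cross_scale ha hs h0 e _)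
  · rw [← Algebra.adjoin_range_eq_range_aeval, Algebra.adjoin_le_iff]
    rintro _ ⟨v, rfl⟩
    by_cases hv : c.ξ v = 0
    · simp [hv]
    · have := key 1 (X v) (by simpa using hmg_Xpow (c.gξ v hv) 1)
      rw [aeval_X] at this
      exact this.mem
  · rintro f ⟨d, a, s, hr⟩
    obtain ⟨n, rfl⟩ := c.gξ.deg hr.hs hr.ne
    exact ⟨_, ⟨s, rfl⟩, hne _ s hr.hs hr.ne, ((key n s hr.hs).inv hr.sx).2.mem,
      ⟨a, (hr.smul_eq _).symm⟩⟩

theorem O_ne_top {d : D} {a : R} (ha : Hmg d a) (h0 : aeval c.ξ a ≠ 0) (h1 : eval c.x a = 0) :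
    c.O ≠ ⊤ := by
  intro h
  obtain ⟨n, rfl⟩ := c.gξ.deg ha h0
  obtain ⟨s, hs, sx⟩ := c.exists_den n
  have hr := rep_div (c := c) ha hs sx
  obtain ⟨d', a', s', h'⟩ : (aeval c.ξ a / aeval c.ξ s)⁻¹ ∈ c.O := h ▸ Algebra.mem_top
  exact hr.ne_of_inv (div_ne_zero h0 hr.ne) h' h1

end CD

end Val

variable {b : ℕ} {S : Spc}

theorem crv_good (h : SurfOK S b) (C : Crv S) : Good b C.ξ := fun v hv =>
  h.good_var fun h0 => hv (by simpa using C.hI _ h0)

theorem crv_fin (C : Crv S) : ∃ V : Finset Var, ∀ v ∉ V, C.ξ v = 0 := by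
  obtain ⟨V, hV⟩ := finJ_I S
  exact ⟨V, fun v hv => by simpa using C.hI _ (hV v hv)⟩

/-- every place has a centre -/
theorem exists_cen (h : SurfOK S b) (C : Crv S) (h0 : C.ξ ≠ 0) (P : Pl ℂ C.K) :
    ∃ x, C.Cen P x := by
  obtain ⟨V, hV⟩ := crv_fin C
  obtain ⟨v₁, hv₁⟩ := Function.ne_iff.1 h0
  have hv₁' : C.ξ v₁ ≠ 0 := hv₁
  have h1 : v₁ ∈ V := by
    by_contra h2
    exact hv₁' (hV v₁ h2)
  obtain ⟨w, -, hw⟩ := V.exists_max_image (fun v => P.v (C.ξ v)) ⟨v₁, h1⟩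
  have h2 : C.ξ w ≠ 0 := fun h3 => by
    have := hw v₁ h1
    simp only [h3, map_zero, le_zero_iff, map_eq_zero] at this
    exact hv₁' this
  have h3 : ∀ v, P.v ((C.ξ w)⁻¹ * C.ξ v) ≤ 1 := fun v => by
    by_cases hv : v ∈ V
    · rw [map_mul, map_inv₀]
      exact inv_mul_le_one_of_le₀ (hw v hv) zero_le
    · simp [hV v hv]
  choose y hy using fun v => Crest.Agent.R013.CE1_280.exists_residue P (h3 v)
  refine ⟨y, S.closed y (h.rel_iff.2 ⟨w, (crv_good h C w h2).1, fun h4 => ?_⟩) fun r hr => ?_,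
    _, hy⟩
  · have := hy w
    rw [h4, inv_mul_cancel₀ h2] at this
    simp at this
  · exact ((I_HS S).le_of_H fun d a ha haI =>
      eval_eq_zero_of_near (crv_good h C) hy (H_iff.1 ha) (C.hI a haI) : S.I ≤ mx y) hr

end Crest.Agent.N265.Psi
end
end

-- ▼ part N265/Psi/Top
section

/-!
# Row 265, PSI part 6 (helper25): from ideals to `G S`

`psi_of_curveIn` : PSI follows from the computation `CurveIn` of principal divisors on curves.
-/

set_option autoImplicit false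
set_option linter.unusedSectionVars false
noncomputable section
open MvPolynomial

namespace Crest.Agent.N265.Psi

open Crest.Agent.N265.Jac Crest.Agent.R013.RR7_948 Crest.Agent.R013.RR11_948

variable {b : ℕ} {S : Spc}

theorem wf_finJ {U : Set (Ideal R)} (hU : ∀ J ∈ U, FinJ J) :
    WellFounded fun X Y : Ideal R => Y ∈ U ∧ Y < X := by
  refine ⟨fun Y => ?_⟩
  by_cases hY : Y ∈ U
  · have key : ∀ Y', Y ≤ Y' → Acc (fun X Y : Ideal R => Y ∈ U ∧ Y < X) Y' := by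
      intro Y'
      induction Y' using (wf_of_finJ (hU Y hY)).induction with
      | _ Y' ih => exact fun hle => ⟨_, fun X hX => ih X ⟨hle, hX.2⟩ (hle.trans hX.2.le)⟩
    exact key Y le_rfl
  · exact ⟨_, fun X hX => (hY hX.1).elim⟩

/-- annihilators of homogeneous elements of modules on `S` -/
def UO (S : Spc) (b : ℕ) : Set (Ideal R) :=
  {J | grR.HS J ∧ FinJ J ∧ (∀ v : Var, v.1 ≠ b → (X v : R) ∈ J) ∧
    ∀ x, Rel S.B x → x ∉ S.pts → ¬ J ≤ mx x}

/-- annihilators of homogeneous elements of irrelevant modules on `S` -/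
def UI (S : Spc) (b : ℕ) : Set (Ideal R) := {J | J ∈ UO S b ∧ ∀ x ∈ S.pts, ¬ J ≤ mx x}

theorem UO_up {J J' : Ideal R} (hJ : J ∈ UO S b) (hJ' : grR.HS J') (hle : J ≤ J') :
    J' ∈ UO S b :=
  ⟨hJ', hJ.2.1.mono hle, fun v hv => hle (hJ.2.2.1 v hv),
    fun x h1 h2 h3 => hJ.2.2.2 x h1 h2 (hle.trans h3)⟩

theorem top_not_le_mx (x : Pt) : ¬ ⊤ ≤ mx x := fun h => (mx_isMaximal x).ne_top (top_le_iff.1 h)

theorem top_mem_UO : ⊤ ∈ UO S b :=
  ⟨grR.HS_top, ⟨∅, fun _ _ => trivial⟩, fun _ _ => trivial, fun x _ _ => top_not_le_mx x⟩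

theorem famO : Fam grR (UO S b) where
  hom _ hJ := hJ.1
  up _ hJ _ hJ' hle := UO_up hJ hJ' hle
  top := top_mem_UO
  wf := wf_finJ fun _ hJ => hJ.2.1

theorem famI : Fam grR (UI S b) where
  hom _ hJ := hJ.1.1
  up _ hJ _ hJ' hle := ⟨UO_up hJ.1 hJ' hle, fun x hx h => hJ.2 x hx (hle.trans h)⟩
  top := ⟨top_mem_UO, fun x _ => top_not_le_mx x⟩
  wf := wf_finJ fun _ hJ => hJ.1.2.1

theorem prime_mem_U2 (h : SurfOK S b) {P : Ideal R} (hP : P ∈ UO S b) (hp : HPr grR P) :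
    P ∈ (ctx h).U2 := by
  refine ⟨hP.1, (I_HS S).le_of_H fun d r hr hrI => ?_⟩
  obtain ⟨k, hk⟩ := nss hP.2.1 (a := r) fun y hy => by
    by_cases h1 : Rel S.B y
    · by_contra h2
      exact hP.2.2.2 y h1 (fun h3 => h2 (hrI y h3)) hy
    · have h2 : y = 0 := by
        funext v
        by_cases hv : v.1 = b
        · by_contra h3
          exact h1 (h.rel_iff.2 ⟨v, hv, h3⟩)
        · simpa [mem_mx] using hy (hP.2.2.1 v hv)
      obtain ⟨x, hx⟩ := h.nonempty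
      have h3 := (h.good hx).scale_eq_zero (H_iff.1 hr) (hrI x hx) 0
      rw [zero_smul] at h3
      rw [h2]
      exact h3
  exact (hp.isPrime hP.1).mem_of_pow_mem k hk

theorem adm_of_on (h : SurfOK S b) {M : GM} (hM : M.On S) : Adm grR (UO S b) (grM M) where
  compat := compat_grM M
  ann j m hm := by
    refine ⟨(compat_grM M).HS_col (grM M).HS_bot hm, ?_, fun v hv => ?_, fun x h1 h2 h3 => ?_⟩
    · obtain ⟨V, hV⟩ := M.fin
      exact ⟨V, fun v hv => mem_col.2 (hV v hv m)⟩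
    · rw [mem_col, Submodule.mem_bot]
      by_cases hj : j ∈ DS S.B
      · have h1 := smul_mem_gr (hmg_X v) (HM_iff.1 hm)
        rw [hM.deg (vdeg v + j) fun h2 => ?_] at h1
        · exact h1
        · have hv' : v.1 ∉ S.B := by simpa [h.blk] using hv
          have h3 := h2 v.1 hv'
          have h4 := hj v.1 hv'
          simp [vdeg, eB, eT, h4] at h3
      · have h1 := HM_iff.1 hm
        rw [hM.deg j hj, Submodule.mem_bot] at h1
        rw [h1, smul_zero]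
    · obtain ⟨r, hr, hr'⟩ := hM.supp x h1 h2
      exact hr (h3 (mem_col.2 (hr' m)))

theorem adm_of_irr (h : SurfOK S b) {M : GM} (hM : M.On S) (hi : M.Irr S) :
    Adm grR (UI S b) (grM M) where
  compat := compat_grM M
  ann j m hm := ⟨(adm_of_on h hM).ann j m hm, fun x hx h3 => by
    obtain ⟨r, hr, hr'⟩ := hi x hx
    exact hr (h3 (mem_col.2 (hr' m)))⟩

theorem fg_grM (M : GM) : (grM M).FG R := (grM M).fg_of_finite

/-- an additive function on ideals gives an additive map on `G S` -/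
theorem exists_G (h : SurfOK S b) {A : Type} [AddCommGroup A] {Ψ : Ideal R → D → A}
    (hΨ : CycAdd grR (ctx h).U2 Ψ) (hm : ∀ J ∈ (ctx h).Um, ∀ γ, Ψ J γ = 0) :
    ∃ ψ : G S →+ A, ∀ (M : GM) (J : Ideal R) (γ : D), M.On S → J ∈ (ctx h).U2 →
      (∃ m ∈ M.gr γ, Submodule.span R {m} = ⊤ ∧ ∀ r : R, r • m = 0 ↔ r ∈ J) →
      ψ (cl S M) = Ψ J γ := by
  obtain ⟨Φ, h1, h2, -⟩ := extend (ctx h).fam2 (famO (S := S) (b := b)) hΨ (fun _ _ => 0)
    fun P hP hn hp => (hn (prime_mem_U2 h hP hp)).elim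
  have h3 : ∀ J ∈ UI S b, ∀ γ, Φ J γ = 0 :=
    famI.induction (fun γ => (h1 ⊤ top_mem_UO).top_eq_zero γ)
      (fun P hP hp γ => by
        have h4 := prime_mem_U2 h hP.1 hp
        rw [h2 P h4, hm P (mem_Um h h4 hP.2)])
      fun J hJ d a γ ha i1 i2 => by rw [h1 J hJ.1 d a γ ha, i1, i2, add_zero]
  let f : FreeAbelianGroup {M : GM // M.On S} →+ A :=
    FreeAbelianGroup.lift fun M => psi Φ (grM M.1)
  have hf : AddSubgroup.closure (GRel S) ≤ f.ker := by
    rw [AddSubgroup.closure_le]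
    rintro z (⟨M₁, M₂, M₃, ⟨i, p, hi, hp, i1, i2, i3⟩, rfl⟩ | ⟨M, hM, rfl⟩)
    · simp only [SetLike.mem_coe, AddMonoidHom.mem_ker, map_sub, f, FreeAbelianGroup.lift_apply_of]
      rw [psi_exact famO h1 (adm_of_on h M₂.2) (adm_of_on h M₁.2) (adm_of_on h M₃.2) (fg_grM _)
        (fg_grM _) i1 i3 i2 (fun j m hm => HM_iff.2 (deg0_mem_gr hi (HM_iff.1 hm)))
        (fun j m => deg0_p hp j m)]
      abel
    · simp only [SetLike.mem_coe, AddMonoidHom.mem_ker, f, FreeAbelianGroup.lift_apply_of]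
      exact psi_eq_zero famI (adm_of_irr h M.2 hM) h3
  refine ⟨QuotientAddGroup.lift _ f hf, fun M J γ hM hJ ⟨m, hm1, hm2, hm3⟩ => ?_⟩
  have e : col (⊥ : Submodule R M.M) m = J := by
    ext r
    rw [mem_col, Submodule.mem_bot, hm3]
  have e2 : cl S M = (QuotientAddGroup.mk (FreeAbelianGroup.of ⟨M, hM⟩) :
      _ ⧸ AddSubgroup.closure (GRel S)) := dif_pos hM
  rw [e2, ← h2 J hJ, ← e, ← psi_cyclic famO h1 (adm_of_on h hM) (HM_iff.2 hm1) hm2]
  exact FreeAbelianGroup.lift_apply_of (fun M : {M : GM // M.On S} => psi Φ (grM M.1)) ⟨M, hM⟩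

/-- principal divisors on curves -/
def CurveIn (h : SurfOK S b) : Prop :=
  ∀ Ψ : Ideal R → D → (Ideal R →₀ ℤ), CycAdd grR (ctx h).U0 Ψ →
    (∀ J ∈ (ctx h).Um, ∀ γ, Ψ J γ = 0) →
    (∀ P, (ctx h).IsPt P → ∀ γ, Ψ P γ = Finsupp.single P 1) →
    ∀ Q, (ctx h).IsCv Q → ∀ (d : D) (a a' : R) (γ : D), Hmg d a → Hmg d a' → a ∉ Q → a' ∉ Q →
      ∃ (C : Crv S) (ctr : Pl ℂ C.K → Pt) (f : C.K), (∀ Q', C.Cen Q' (ctr Q')) ∧ f ≠ 0 ∧
        Ψ (adj Q a) γ - Ψ (adj Q a') γ = (divf (k := ℂ) f).mapDomain fun Q' => lineI (ctr Q')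

theorem psi_of_curveIn (h : SurfOK S b) (hc : CurveIn h) : PsiStmt S b := by
  classical
  have hrep : ∀ P : Ideal R, ∃ y : Pt, ∀ x ∈ S.pts, P = lineI x →
      Finsupp.single y (1 : ℤ) - Finsupp.single x 1 ∈ RatEq S := by
    intro P
    by_cases hP : ∃ y ∈ S.pts, P = lineI y
    · obtain ⟨y, hy, rfl⟩ := hP
      refine ⟨y, fun x hx e => ?_⟩
      obtain ⟨c, hc, rfl⟩ := eq_smul_of_lineI_le (h.ne_zero hx) (h.ne_zero hy) e.ge
      exact AddSubgroup.subset_closure (Or.inl ⟨x, hx, c, hc, rfl⟩)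
    · exact ⟨0, fun x hx e => (hP ⟨x, hx, e⟩).elim⟩
  choose rep hrep using hrep
  let mk := QuotientAddGroup.mk' (RatEq S)
  let t : (Ideal R →₀ ℤ) →+ (Pt →₀ ℤ) ⧸ RatEq S := mk.comp (Finsupp.mapDomain.addMonoidHom rep)
  have ht : ∀ x ∈ S.pts, ∀ n : ℤ, t (Finsupp.single (lineI x) n) = mk (Finsupp.single x n) := by
    intro x hx n
    have h1 : mk (Finsupp.single (rep (lineI x)) 1) = mk (Finsupp.single x 1) := by
      rw [← sub_eq_zero, ← map_sub]
      exact (QuotientAddGroup.eq_zero_iff _).2 (hrep _ x hx rfl)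
    have h2 : ∀ y : Pt, Finsupp.single y n = n • Finsupp.single y (1 : ℤ) := fun y => by simp
    simp only [t, AddMonoidHom.comp_apply, Finsupp.mapDomain.addMonoidHom_apply,
      Finsupp.mapDomain_single]
    rw [h2, h2 x, map_zsmul, map_zsmul, h1]
  obtain ⟨Z, z1, z2, z3⟩ := (ctx h).level0 fun P => Finsupp.single P (1 : ℤ)
  have y1 : CycAdd (ctx h).A (ctx h).U0 fun J γ => t (Z J γ) :=
    fun J hJ d a γ ha => by simp only [z1 J hJ d a γ ha, map_add]
  have y2 : ∀ J ∈ (ctx h).Um, ∀ γ, t (Z J γ) = 0 := fun J hJ γ => by rw [z2 J hJ, map_zero]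
  obtain ⟨A, _, κ, Ψ, k1, k2, k3⟩ := Ctx.main (ctx_dim h) (ctx_nrm h) (ctx_big h) y1 y2
    (Ctx.inv_of (ctx h).fam0 (fun _ hJ => hJ.1) y1 fun P hP hp γ => by
      by_cases hm : P ∈ (ctx h).Um
      · rw [y2 P hm, y2 P hm]
      · rw [z3 P (Ctx.isPt_of hP hm hp), z3 P (Ctx.isPt_of hP hm hp)])
    fun Q hQ d a a' γ ha ha' haQ haQ' => by
      obtain ⟨C, ctr, f, c1, c2, c3⟩ := hc Z z1 z2 z3 Q hQ d a a' γ (H_iff.1 ha) (H_iff.1 ha')
        haQ haQ'
      have key : ∀ z : Pl ℂ C.K →₀ ℤ,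
          t (z.mapDomain fun Q' => lineI (ctr Q')) = mk (z.mapDomain ctr) := by
        intro z
        induction z using Finsupp.induction_linear with
        | zero => simp
        | add z z' i1 i2 => simp only [Finsupp.mapDomain_add, map_add, i1, i2]
        | single Q' n => simp only [Finsupp.mapDomain_single, ht _ (c1 Q').1]
      rw [← sub_eq_zero, ← map_sub, c3, key]
      exact (QuotientAddGroup.eq_zero_iff _).2
        (AddSubgroup.subset_closure (Or.inr ⟨C, ctr, f, c1, c2, rfl⟩))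
  refine ⟨A, inferInstance, κ.comp mk, fun z hz => ?_, fun wt hw => ?_⟩
  · rw [AddMonoidHom.mem_ker, AddMonoidHom.comp_apply, ← map_zero κ] at hz
    exact (QuotientAddGroup.eq_zero_iff _).1 (k1 hz)
  obtain ⟨ψ, hψ⟩ := exists_G h (Ctx.cycAdd_wt (ctx h).fam2 subset_rfl k2 wt hw)
    fun J hJ γ => by rw [k3 J ((ctx h).Um_sub hJ), y2 J hJ, map_zero, smul_zero]
  refine ⟨ψ, fun M x γ hx hM hp => ?_⟩
  have hpt := isPt_lineI h hx
  rw [hψ M (lineI x) γ hM hpt.1.1 hp, k3 _ hpt.mem_U0, z3 _ hpt, ht x hx]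
  rfl

end Crest.Agent.N265.Psi
end
end

-- ▼ part N265/Psi/Fld

/-!
# Row 265, PSI part 9 (helper25): the function field of a curve on `S`; **PSI**

`exists_crv` : a curve prime `Q` is the ideal of a `Crv S`.  `psi_of_surfOK : SurfOK S b → PsiStmt S b`.
-/

set_option autoImplicit false
set_option linter.unusedSectionVars false
noncomputable section
open MvPolynomial

namespace Crest.Agent.N265.Psi

open Crest.Agent.N265.Jac Crest.Agent.R013.RR7_948 Crest.Agent.R013.RR11_948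
  Crest.Agent.R270.Crv_110

variable {b : ℕ} {S : Spc}

section Homog

variable {K : Type} [Field K] [Algebra ℂ K] {ξ : Var → K} {w : Var}

theorem raise (hξ : Good b ξ) (hw : ξ w = 1) {n : ℕ} {a : R} (ha : Hmg (n • eB b) a) (m : ℕ) :
    ∃ a', Hmg ((n + m) • eB b) a' ∧ aeval ξ a' = aeval ξ a :=
  ⟨a * X w ^ m, by
    rw [add_smul]
    exact hmg_mul ha (hmg_Xpow (hξ w (hw ▸ one_ne_zero)) m), by simp [hw]⟩

/-- homogenisation -/
theorem homog (hξ : Good b ξ) (hw : ξ w = 1) (r : R) :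
    ∃ (n : ℕ) (a : R), Hmg (n • eB b) a ∧ aeval ξ a = aeval ξ r := by
  induction r using MvPolynomial.induction_on with
  | C c => exact ⟨0, C c, by simpa using hmg_C c, rfl⟩
  | add p q hp hq =>
    obtain ⟨n, a, h1, h2⟩ := hp
    obtain ⟨m, a', h1', h2'⟩ := hq
    obtain ⟨u, u1, u2⟩ := raise hξ hw h1 m
    obtain ⟨u', u1', u2'⟩ := raise hξ hw h1' n
    rw [add_comm m n] at u1'
    exact ⟨n + m, u + u', hmg_add u1 u1', by rw [map_add, map_add, u2, u2', h2, h2']⟩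
  | mul_X p v hp =>
    obtain ⟨n, a, h1, h2⟩ := hp
    by_cases hv : ξ v = 0
    · exact ⟨0, 0, hmg_zero _, by simp [hv]⟩
    · refine ⟨n + 1, a * X v, ?_, by simp [h2]⟩
      rw [succ_nsmul, ← vdeg_good (hξ v hv)]
      exact hmg_mul (vdeg_good (hξ v hv) ▸ h1) (hmg_X v)

end Homog

/-- the largest homogeneous ideal inside an ideal -/
def hcore (p : Ideal R) : Ideal R := Ideal.span {a | (∃ d, Hmg d a) ∧ a ∈ p}

theorem hcore_le (p : Ideal R) : hcore p ≤ p := Ideal.span_le.2 fun _ h => h.2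

theorem mem_hcore {p : Ideal R} {d : D} {a : R} (ha : Hmg d a) : a ∈ hcore p ↔ a ∈ p :=
  ⟨fun h => hcore_le p h, fun h => Ideal.subset_span ⟨⟨d, ha⟩, h⟩⟩

theorem hcore_HS (p : Ideal R) : grR.HS (hcore p) := by
  refine HS_iff.2 fun r hr => ?_
  induction hr using Submodule.span_induction with
  | mem a ha =>
    obtain ⟨⟨d, hd⟩, h⟩ := ha
    rw [hd]
    exact Ideal.mul_mem_left _ _ ((mem_hcore hd).2 h)
  | zero => simp
  | add x y _ _ hx hy => rw [map_add]; exact add_mem hx hy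
  | smul s x _ hx => rw [smul_eq_mul, map_mul]; exact Ideal.mul_mem_left _ _ hx

theorem hcore_HPr {p : Ideal R} (hp : p.IsPrime) : HPr grR (hcore p) :=
  ⟨fun h => hp.ne_top (top_le_iff.1 (h ▸ hcore_le p)), fun _ _ _ _ ha hb h => by
    rw [mem_hcore (H_iff.1 ha), mem_hcore (H_iff.1 hb)]
    exact hp.mem_or_mem (hcore_le p h)⟩

/-- the affine coordinate ring of a curve has dimension at most one -/
theorem dim_range {h : SurfOK S b} {Q : Ideal R} (hQ : (ctx h).IsCv Q) {K : Type} [Field K]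
    [Algebra ℂ K] {ξ : Var → K} {w : Var} (hξ : Good b ξ) (hw : ξ w = 1)
    (hK : ∀ d a, Hmg d a → a ∈ Q → aeval ξ a = 0) :
    ringKrullDim (aeval ξ : R →ₐ[ℂ] K).range ≤ 1 := by
  set θ := (aeval ξ : R →ₐ[ℂ] K).rangeRestrict
  have gw := hξ w (hw ▸ one_ne_zero)
  have hQle : ∀ p : Ideal (aeval ξ : R →ₐ[ℂ] K).range, Q ≤ hcore (p.comap θ) := fun p =>
    hQ.1.1.1.le_of_H fun d a ha haQ => (mem_hcore (H_iff.1 ha)).2 (by
      rw [Ideal.mem_comap, show θ a = 0 from Subtype.ext (hK d a (H_iff.1 ha) haQ)]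
      exact zero_mem _)
  have hrp : ∀ p : Ideal (aeval ξ : R →ₐ[ℂ] K).range, p.IsPrime → (ctx h).RP (hcore (p.comap θ)) :=
    fun p hp => ⟨⟨hcore_HS _, hQ.1.1.2.trans (hQle p)⟩, hcore_HPr (Ideal.comap_isPrime θ p), X w,
      ⟨w, gw, rfl⟩, fun h0 => by
        have h1 := hcore_le _ h0
        rw [Ideal.mem_comap, show θ (X w) = 1 from Subtype.ext (by simp [θ, hw])] at h1
        exact hp.ne_top ((Ideal.eq_top_iff_one p).2 h1)⟩
  have hlt : ∀ p q : Ideal (aeval ξ : R →ₐ[ℂ] K).range, p < q →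
      hcore (p.comap θ) < hcore (q.comap θ) := by
    intro p q hpq
    refine lt_of_le_of_ne (Ideal.span_mono fun a ha => ⟨ha.1, Ideal.comap_mono hpq.le ha.2⟩)
      fun e => hpq.not_ge ?_
    rintro ⟨_, r, rfl⟩ hr
    obtain ⟨n, a, h1, h2⟩ := homog hξ hw r
    have e2 : θ a = ⟨_, r, rfl⟩ := Subtype.ext h2
    have h3 : a ∈ hcore (q.comap θ) := (mem_hcore h1).2 (by rw [Ideal.mem_comap, e2]; exact hr)
    rw [← e, mem_hcore h1, Ideal.mem_comap, e2] at h3
    exact h3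
  have : Ring.KrullDimLE 1 (aeval ξ : R →ₐ[ℂ] K).range := by
    refine Ring.krullDimLE_one_iff_of_noZeroDivisors.2 fun p hp0 hp => ?_
    obtain ⟨m, hm, hle⟩ := p.exists_le_maximal hp.ne_top
    rcases hle.eq_or_lt with e | e
    · exact e ▸ hm
    · exact (ctx_dim h _ _ _ (hrp ⊥ Ideal.isPrime_bot) (hrp p hp) (hrp m hm.isPrime)
        (hQ.2.1.trans_le (hQle ⊥)) (hlt ⊥ p (bot_lt_iff_ne_bot.2 hp0)) (hlt p m e)).elim
  exact_mod_cast Ring.krullDimLE_iff.1 this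

theorem exists_transc {h : SurfOK S b} {Q : Ideal R} (hQ : (ctx h).IsCv Q) {K : Type} [Field K]
    [Algebra ℂ K] {ξ : Var → K} {w : Var} (hξ : Good b ξ) (hw : ξ w = 1)
    (hK : ∀ d a, Hmg d a → (aeval ξ a = 0 ↔ a ∈ Q)) : ∃ y : K, Transcendental ℂ y := by
  by_contra h0
  have h1 : ∀ v, ∃ c : ℂ, algebraMap ℂ K c = ξ v := fun v => by
    have h2 : IsIntegral ℂ (ξ v) := (not_not.1 fun h3 => h0 ⟨ξ v, h3⟩ : IsAlgebraic ℂ _).isIntegral
    exact minpoly.mem_range_of_degree_eq_one ℂ _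
      (IsAlgClosed.degree_eq_one_of_irreducible ℂ (minpoly.irreducible h2))
  choose x hx using h1
  have h2 : ∀ r : R, aeval ξ r = algebraMap ℂ K (eval x r) := fun r => by
    induction r using MvPolynomial.induction_on with
    | C c => simp
    | add p q hp hq => simp [hp, hq]
    | mul_X p v hp => simp [hp, hx]
  have h3 : ∀ d a, Hmg d a → (eval x a = 0 ↔ a ∈ Q) := fun d a ha => by
    rw [← hK d a ha, h2, map_eq_zero (algebraMap ℂ K)]
  have h4 : Q ≤ mx x := hQ.1.1.1.le_of_H fun d a ha haQ => (h3 d a (H_iff.1 ha)).2 haQ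
  have h5 : x ∈ S.pts := S.closed x (h.rel_iff.2 ⟨w, (hξ w (hw ▸ one_ne_zero)).1, fun h5 => by
    have := hx w
    rw [h5, hw, map_zero] at this
    exact zero_ne_one this⟩) fun r hr => h4 (hQ.1.1.2 hr)
  have g := h.good h5
  refine hQ.2.2 ((isPt_iff h).2 ⟨x, h5, le_antisymm (g.le_lineI hQ.1.1.1 h4) ?_⟩)
  exact g.lineI_HS.le_of_H fun d a ha hax =>
    (h3 d a (H_iff.1 ha)).1 ((g.hmg_mem_lineI (H_iff.1 ha)).1 hax)

theorem aeval_frac (P : Ideal R) [P.IsPrime] (r : R) :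
    aeval (fun v => algebraMap (R ⧸ P) (FractionRing (R ⧸ P)) (Ideal.Quotient.mk P (X v))) r =
      algebraMap (R ⧸ P) (FractionRing (R ⧸ P)) (Ideal.Quotient.mk P r) := by
  induction r using MvPolynomial.induction_on with
  | C c =>
    rw [aeval_C, IsScalarTower.algebraMap_apply ℂ (R ⧸ P) (FractionRing (R ⧸ P))]
    rfl
  | add p q hp hq => simp only [map_add, hp, hq]
  | mul_X p v hp => simp only [map_mul, hp, aeval_X]

/-- the generic point of a prime ideal -/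
theorem exists_generic (P : Ideal R) (hP : P.IsPrime) : ∃ (K : Type) (_ : Field K) (_ : Algebra ℂ K)
    (ξ : Var → K), (∀ r : R, aeval ξ r = 0 ↔ r ∈ P) ∧
      ∀ f : K, ∃ r s : R, aeval ξ s ≠ 0 ∧ f * aeval ξ s = aeval ξ r := by
  refine ⟨FractionRing (R ⧸ P), inferInstance, inferInstance,
    fun v => algebraMap (R ⧸ P) _ (Ideal.Quotient.mk P (X v)), fun r => ?_, fun f => ?_⟩
  · rw [aeval_frac, IsFractionRing.to_map_eq_zero_iff, Ideal.Quotient.eq_zero_iff_mem]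
  · obtain ⟨a, s, hs, rfl⟩ := IsFractionRing.div_surjective (A := R ⧸ P) f
    obtain ⟨a, rfl⟩ := Ideal.Quotient.mk_surjective a
    obtain ⟨s, rfl⟩ := Ideal.Quotient.mk_surjective s
    have h1 := IsFractionRing.to_map_ne_zero_of_mem_nonZeroDivisors (K := FractionRing (R ⧸ P)) hs
    refine ⟨a, s, ?_, ?_⟩
    · rwa [aeval_frac]
    · rw [aeval_frac, aeval_frac, div_mul_cancel₀ _ h1]

/-- a curve prime is the ideal of a `Crv` -/
theorem exists_crv {h : SurfOK S b} {Q : Ideal R} (hQ : (ctx h).IsCv Q) :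
    ∃ C : Crv S, C.ξ ≠ 0 ∧ ∀ d a, Hmg d a → (aeval C.ξ a = 0 ↔ a ∈ Q) := by
  obtain ⟨⟨hh, hI⟩, hp, _, ⟨w, gw, rfl⟩, hw⟩ := hQ.1
  obtain ⟨F, _, _, ζ, z1, -⟩ := exists_generic Q (hp.isPrime hh)
  have gζ : Good b ζ := fun v hv => h.good_var fun h0 => hv (by simpa using (z1 _).2 (hI h0))
  have hζ : ζ w ≠ 0 := fun h0 => hw ((z1 _).1 (by simpa using h0))
  obtain ⟨K, _, _, ξ, x1, x2⟩ := exists_generic
    (RingHom.ker (aeval ((ζ w)⁻¹ • ζ) : R →ₐ[ℂ] F)) (RingHom.ker_isPrime _)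
  simp only [RingHom.mem_ker] at x1
  have hK : ∀ d a, Hmg d a → (aeval ξ a = 0 ↔ a ∈ Q) := fun d a ha => by
    rw [x1, ← z1]
    refine ⟨fun h0 => ?_, fun h0 => gζ.scale_eq_zero ha h0 _⟩
    have := (gζ.smul _).scale_eq_zero ha h0 (ζ w)
    rwa [smul_smul, mul_inv_cancel₀ hζ, one_smul] at this
  have hξw : ξ w = 1 := by
    have := (x1 (X w - 1)).2 (by simp [hζ])
    rwa [map_sub, aeval_X, map_one, sub_eq_zero] at this
  have hSI : ∀ r ∈ S.I, aeval ξ r = 0 := fun r hr =>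
    (hh.le_of_H fun d a ha haQ => (hK d a (H_iff.1 ha)).2 haQ :
      Q ≤ RingHom.ker (aeval ξ : R →ₐ[ℂ] K)) (hI hr)
  have gξ : Good b ξ := fun v hv => h.good_var fun h0 => hv (by simpa using hSI _ h0)
  obtain ⟨V, hV⟩ := finJ_I S
  obtain ⟨y, hy⟩ := exists_transc hQ gξ hξw hK
  obtain ⟨_, _, i1, i2⟩ := exists_ratAlg' (aeval ξ : R →ₐ[ℂ] K).range
    (fg_range V fun v hv => by simpa using hSI _ (hV v hv))
    (IsFractionRing.of_field _ _ fun f => by
      obtain ⟨r, s, h1, h2⟩ := x2 f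
      exact ⟨⟨_, r, rfl⟩, ⟨_, s, rfl⟩, (eq_div_iff h1).2 h2⟩)
    (dim_range hQ gξ hξw fun d a ha => (hK d a ha).2) hy
  refine ⟨{ K := K, ξ := ξ, hI := hSI, gen := fun f => ?_ }, fun h0 => ?_, hK⟩
  · obtain ⟨r, s, h1, h2⟩ := x2 f
    obtain ⟨n, a, a1, a2⟩ := homog gξ hξw r
    obtain ⟨m, t, t1, t2⟩ := homog gξ hξw s
    obtain ⟨u, u1, u2⟩ := raise gξ hξw a1 m
    obtain ⟨u', u1', u2'⟩ := raise gξ hξw t1 n
    rw [add_comm m n] at u1'
    exact ⟨_, u, u', u1, u1', by rwa [u2', t2], by rw [u2, u2', a2, t2, h2]⟩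
  · exact one_ne_zero (hξw.symm.trans (congrFun h0 w))

theorem mapDomain_apply_eq {α β : Type*} (g : α → β) (T : Finset α) (P : β)
    (hT : ∀ a, a ∈ T ↔ g a = P) (z : α →₀ ℤ) : z.mapDomain g P = ∑ a ∈ T, z a := by
  classical
  induction z using Finsupp.induction_linear with
  | zero => simp
  | add z z' h1 h2 => simp [Finsupp.mapDomain_add, h1, h2, Finset.sum_add_distrib]
  | single a n => simp [Finsupp.mapDomain_single, Finsupp.single_apply, hT]

theorem curveIn (h : SurfOK S b) : CurveIn h := by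
  intro Ψ h1 h2 h3 Q hQ d a a' γ ha ha' haQ haQ'
  obtain ⟨C, c0, hK⟩ := exists_crv hQ
  choose ctr hctr using exists_cen h C c0
  have gξ := crv_good h C
  have na : aeval C.ξ a ≠ 0 := fun h0 => haQ ((hK d a ha).1 h0)
  have na' : aeval C.ξ a' ≠ 0 := fun h0 => haQ' ((hK d a' ha').1 h0)
  refine ⟨C, ctr, aeval C.ξ a / aeval C.ξ a', hctr, div_ne_zero na na', ?_⟩
  ext P
  rw [Finsupp.sub_apply]
  by_cases hP : ∃ x ∈ S.pts, P = lineI x ∧ Q ≤ lineI x
  · obtain ⟨x, hx, rfl, hle⟩ := hP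
    have gx := h.good hx
    let c : CD b C.K := ⟨C.ξ, x, gξ, gx,
      fun e s hs h0 => (gx.hmg_mem_lineI hs).1 (hle ((hK e s hs).1 h0)), h.ne_zero hx⟩
    obtain ⟨n, rfl⟩ := gξ.deg ha na
    obtain ⟨s, hs, sx⟩ := c.exists_den n
    have r1 := CD.rep_div (c := c) ha hs sx
    have r2 := CD.rep_div (c := c) ha' hs sx
    obtain ⟨V, hV⟩ := crv_fin C
    have hess := c.essFT V hV C.gen
    have hne : c.O ≠ ⊤ := by
      obtain ⟨e, u, hu, hux, huQ⟩ := gx.lineI_HS.exists_H (N := Q) fun h0 =>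
        hQ.2.2 (le_antisymm hle h0 ▸ isPt_lineI h hx)
      exact CD.O_ne_top (c := c) (H_iff.1 hu) (fun h0 => huQ ((hK e u (H_iff.1 hu)).1 h0))
        ((gx.hmg_mem_lineI (H_iff.1 hu)).1 hux)
    have n1 : aeval C.ξ a / aeval C.ξ s ≠ 0 := div_ne_zero na r1.ne
    have n2 : aeval C.ξ a' / aeval C.ξ s ≠ 0 := div_ne_zero na' r1.ne
    obtain ⟨hfin, e1⟩ := lenK c.O hess hne ⟨_, r1.mem⟩ n1
    obtain ⟨_, e2⟩ := lenK c.O hess hne ⟨_, r2.mem⟩ n2
    have e3 := ord_eq h1 h2 h3 hQ c hx hK (α := ⟨_, r1.mem⟩) r1 haQ γ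
    have e4 := ord_eq h1 h2 h3 hQ c hx hK (α := ⟨_, r2.mem⟩) r2 haQ' γ
    have e5 : aeval C.ξ a / aeval C.ξ a' =
        (aeval C.ξ a / aeval C.ξ s) * (aeval C.ξ a' / aeval C.ξ s)⁻¹ := by
      have : aeval C.ξ s ≠ 0 := r1.ne
      field_simp
    rw [mapDomain_apply_eq _ hfin.toFinset _ fun Q' => ?_, e5, divf_mul n1 (inv_ne_zero n2),
      divf_inv n2]
    · refine (congrArg₂ (· - ·) (e3.trans e1) (e4.trans e2)).trans ?_
      rw [← Finset.sum_sub_distrib]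
      refine Finset.sum_congr rfl fun Q' _ => ?_
      rw [Finsupp.add_apply, Finsupp.neg_apply, sub_eq_add_neg]
    · rw [Set.Finite.mem_toFinset]
      obtain ⟨hy, t, ht⟩ := hctr Q'
      exact ⟨fun hd => lineI_eq_of_le h hx hy (CD.le_of_dom (c := c) (h.good hy) ht hd),
        fun e => CD.dom_of_eq (c := c) (h.good hy) ht e⟩
  · have key : ∀ u, Hmg d u → u ∉ Q → Ψ (adj Q u) γ P = 0 := fun u hu huQ => by
      by_contra h0
      obtain ⟨p1, p2⟩ := supp_cyc h1 h2 h3 P _ (hQ.adj_mem (ctx_dim h) (H_iff.2 hu) huQ) γ h0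
      obtain ⟨x, hx, rfl⟩ := (isPt_iff h).1 p1
      exact hP ⟨x, hx, rfl, (le_adj Q u).trans p2⟩
    rw [key a ha haQ, key a' ha' haQ', mapDomain_apply_eq _ ∅ _ fun Q' => ?_]
    · simp
    · obtain ⟨hy, t, ht⟩ := hctr Q'
      refine ⟨fun h0 => by simp at h0, fun e => (hP ⟨_, hy, e.symm, ?_⟩).elim⟩
      exact (h.good hy).le_lineI hQ.1.1.1 (hQ.1.1.1.le_of_H fun e u hu huQ =>
        eval_eq_zero_of_near gξ ht (H_iff.1 hu) ((hK e u (H_iff.1 hu)).2 huQ))

/-- **PSI** -/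
theorem psi_of_surfOK (h : SurfOK S b) : PsiStmt S b := psi_of_curveIn h (curveIn h)

end Crest.Agent.N265.Psi
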